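import Vale.Agent.P144DD.Defs
import Vale.Agent.P144A.Gen
import Vale.Agent.P144A.Unif
import Vale.Agent.P144U.Free.Lat

/-!
The statements of the blocks.
-/

namespace Vale.Agent.P144DD

open Filter Topology Vale.Agent.P144 Vale.Agent.P144Z

/-- The points are at distance at least `s` from the complement of `D` and from infinity. -/
def Ins (D : Set ℂ) (s : ℝ) (p : Pts) : Prop :=
  ∀ i, ‖Sum.elim p.x p.y i‖ ≤ s⁻¹ ∧ Metric.ball (Sum.elim p.x p.y i) s ⊆ D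

/-- The points are at mutual distance at least `t`. -/
def Sep (t : ℝ) (p : Pts) : Prop :=
  ∀ i i', i ≠ i' → t ≤ ‖Sum.elim p.x p.y i - Sum.elim p.x p.y i'‖

/-- Universality down to separations that are a power of the mesh. -/
def UDP (D : Set ℂ) (E₀ E : Fam) (Zσ Zε : ℝ) : Prop :=
  ∀ n m : ℕ, ∀ s > (0 : ℝ), ∃ θ > (0 : ℝ), ∀ ε > (0 : ℝ), ∀ᶠ a in 𝓝[>] (0 : ℝ), ∀ p : Pts,
    p.n = n → p.m = m → Ins D s p → Sep (a ^ θ) p →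
      |corr a (E a) p - Zσ ^ p.n * Zε ^ p.m * corr a (E₀ a) p| ≤ ε

/-- Separated clusters of spins, or of energies, of any size between the mesh and one. -/
def ZBM (D : Set ℂ) (E : Fam) : Prop :=
  ∀ n m k : ℕ, n = 0 ∨ m = 0 → Even n → 2 ≤ k → ∀ s₀ > (0 : ℝ), ∃ A L₀ r : ℝ, 0 < r ∧
    ∀ᶠ a in 𝓝[>] (0 : ℝ), ∀ s, L₀ * a ≤ s → s ≤ r → ∀ p : Pts, p.n = n → p.m = m → Ins D s₀ p →
      (∀ i i', ‖Sum.elim p.x p.y i - Sum.elim p.x p.y i'‖ ≤ 2 * s) → Sep (s / k) p →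
        |corr a (E a) p| * (s ^ (1 / 8 : ℝ)) ^ n * s ^ m ≤ A

/-- The pointwise majorant: `t i` is at most the distance from the point `i` to the others. -/
def Maj (D : Set ℂ) (E₀ : Fam) : Prop :=
  ∀ n m : ℕ, ∀ s > (0 : ℝ), ∃ C : ℝ, ∀ᶠ a in 𝓝[>] (0 : ℝ), ∀ p : Pts, p.n = n → p.m = m →
    Ins D s p → ∀ t : Fin p.n ⊕ Fin p.m → ℝ, (∀ i, 0 < t i ∧ t i ≤ 1) →
      (∀ i i', i ≠ i' → t i ≤ ‖Sum.elim p.x p.y i - Sum.elim p.x p.y i'‖) →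
        |corr a (E₀ a) p| * (∏ i, t (Sum.inl i) ^ (1 / 8 : ℝ)) * ∏ k, t (Sum.inr k) ≤ C

/-- The property holds for all large `L` and all critical parameters close to the
nearest-neighbour model. -/
def Ev (P : ℕ → Par → Prop) : Prop :=
  ∃ L₀ : ℕ, ∀ L ≥ L₀, ∃ η₀ > (0 : ℝ), ∀ R : ℕ, ∃ δ₀ > (0 : ℝ), ∀ q : Par, q.R = R →
    Crit L q η₀ δ₀ → P L q

/-- The discretisations of `D` can be dug so that the boundary is good. -/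
def DomG (L : ℕ) (ε : ℝ) (D : Set ℂ) : Prop :=
  ∃ (N k₀ : ℕ) (Raw : Finset Site → ℕ → Prop), (∀ k ≥ k₀, GeoF Raw (QU L ε k N) L) ∧
    ∃ T > (0 : ℝ), ∃ ρ > (0 : ℝ), ∀ a > (0 : ℝ),
      (∀ x, x ∈ disc D a ↔ (⟨a * x.1, a * x.2⟩ : ℂ) ∈ D) ∧ (∀ x ∈ disc D a, a * zd x 0 ≤ T) ∧
        ∀ r : ℕ, 1 ≤ r → a * r ≤ ρ → Raw (disc D a) r

/-- Block A: the domains. -/
def BlkA : Prop :=
  ∃ ε₀ > (0 : ℝ), ∀ ε > (0 : ℝ), ε ≤ ε₀ → Ev fun L q => ∀ J lam β : ℝ, 0 < J →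
    UL.Rel J lam β q → ∀ D b, DomG L ε D → StdBC b →
      UDP D (crit J D b) (inDom J lam q.V β D b) (Real.exp (AN.sg L q)) (AN.ze L q)

/-- Block P: the plane. -/
def BlkP : Prop :=
  Ev fun L q => ∀ J lam β : ℝ, 0 < J → U4.Rel J lam β q → ∀ μ, IsTorusState J lam q.V β μ →
    ∀ E₀, PlaneFam J 0 (fun _ => 0) (Kc / J) E₀ →
      UDP Set.univ E₀ (famOf μ) (Real.exp (AN.sg L q)) (AN.ze L q)

/-- Block B: clusters in the domains. -/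
def BlkB : Prop :=
  ∃ ε₀ > (0 : ℝ), ∀ ε > (0 : ℝ), ε ≤ ε₀ → Ev fun L q => ∀ J lam β : ℝ, 0 < J →
    UL.Rel J lam β q → ∀ D b, DomG L ε D → StdBC b → ZBM D (inDom J lam q.V β D b)

/-- Block C: the majorant for the nearest-neighbour model. -/
def BlkC : Prop :=
  ∀ J > (0 : ℝ), (∀ (L : ℕ) (ε : ℝ) D b, 2 ≤ L → DomG L ε D → StdBC b → Maj D (crit J D b)) ∧
    ∀ E₀, PlaneFam J 0 (fun _ => 0) (Kc / J) E₀ → Maj Set.univ E₀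

end Vale.Agent.P144DD
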