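import Vale.Agent.P144DD.Blk
import Vale.Agent.P144F.Plane
import Vale.Agent.P144F.Rp
import Vale.Agent.Results.P144.AAAAAll

/-!
The statements of the analytic blocks and of the final result.
-/

namespace Vale.Agent.P144DD

open Filter Topology MeasureTheory Vale.Agent.P144 Vale.Agent.P144Z Vale.Agent.P144F

/-- The family is given by probability measures. -/
def Prob (E : Fam) : Prop :=
  ∃ μ : ℝ → Measure Config, (∀ a, IsProbabilityMeasure (μ a)) ∧ Rep E μ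

/-- Block H: from the pointwise bounds to the distributions. -/
def BlkH : Prop :=
  ∀ (D : Set ℂ) (E₀ E : Fam) (Zσ Zε : ℝ), IsOpen D → Prob E₀ → Prob E → UDP D E₀ E Zσ Zε →
    ZBM D E → Maj D E₀ → DistDiff D E₀ E Zσ Zε

/-- Block I: dominated convergence with the majorant. -/
def BlkI : Prop :=
  ∀ (D : Set ℂ) (E₀ : Fam) (C : Pts → ℝ), IsOpen D → Prob E₀ → Maj D E₀ →
    (∀ p : Pts, p.n + p.m = 0 → C p = 1) → (∀ p, Good D p → Lim E₀ p (C p)) →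
      DistLim D E₀ 1 1 C

/-- Block Z: clusters in the plane, by self-similarity. -/
def BlkZ : Prop :=
  ∀ (μ : Measure Config) (E₀ : Fam) (Zσ Zε : ℝ), IsProbabilityMeasure μ →
    (∀ t : Site, μ.map (fun σ x => σ (x + t)) = μ) → UDP Set.univ E₀ (famOf μ) Zσ Zε →
      Maj Set.univ E₀ → ZBM Set.univ (famOf μ)

/-- The final statement. -/
def Final : Prop :=
  ∀ J > 0, ∃ (C : Pts → ℝ) (CD : Set ℂ → Option (ℝ → Config) → Pts → ℝ)
    (ν : ∀ r : ℕ, (Fin r → ℂ → ℝ) → Measure (Fin r → ℝ))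
    (νD : Set ℂ → Option (ℝ → Config) → ∀ r : ℕ, (Fin r → ℂ → ℝ) → Measure (Fin r → ℝ)),
    (∃ E₀, PlaneFam J 0 (fun _ => 0) (Kc / J) E₀) ∧
    (∀ p, Good Set.univ p → (∀ E₀, PlaneFam J 0 (fun _ => 0) (Kc / J) E₀ → Lim E₀ p (C p)) ∧
      (∀ j, C { p with j := j } = C p) ∧ (p.m = 0 → Even p.n → 0 < C p)) ∧
    RP C ∧ IsLaw Set.univ C ν ∧
    (∀ E₀, PlaneFam J 0 (fun _ => 0) (Kc / J) E₀ →
      FieldLim Set.univ E₀ 1 ν ∧ DistLim Set.univ E₀ 1 1 C) ∧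
    (∀ D b, P144Y.Nice D b → (∀ p, Good D p → Lim (crit J D b) p (CD D b p) ∧
      (∀ j, CD D b { p with j := j } = CD D b p) ∧
      (p.m = 0 → (b = none ∧ Even p.n ∨ b = some fun _ _ => true) → 0 < CD D b p)) ∧
      IsLaw D (CD D b) (νD D b) ∧ FieldLim D (crit J D b) 1 (νD D b)) ∧
    ∀ K < 1, ∀ V, IsPotential V → ∃ lam₀ > 0,
      ∃ β Zσ Zε : ℝ → ℝ, AnalyticOnNhd ℝ β (Set.Ioo (-lam₀) lam₀) ∧
      AnalyticOnNhd ℝ Zσ (Set.Ioo (-lam₀) lam₀) ∧ AnalyticOnNhd ℝ Zε (Set.Ioo (-lam₀) lam₀) ∧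
      β 0 = Kc / J ∧ Zσ 0 = 1 ∧ Zε 0 = 1 ∧ ∀ lam : ℝ, |lam| < lam₀ →
        0 < β lam ∧ 0 < Zσ lam ∧ 0 < Zε lam ∧
        (∃ μ, IsPlaneState J lam V (β lam) μ ∧ IsTorusState J lam V (β lam) μ ∧
          (∀ p, Good Set.univ p → Lim (famOf μ) p (Zσ lam ^ p.n * Zε lam ^ p.m * C p)) ∧
          (∀ E₀, PlaneFam J 0 (fun _ => 0) (Kc / J) E₀ →
            LocDiff Set.univ E₀ (famOf μ) (Zσ lam) (Zε lam)) ∧
          FieldLim Set.univ (famOf μ) (Zσ lam) ν ∧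
          DistLim Set.univ (famOf μ) (Zσ lam) (Zε lam) C) ∧
        ∀ D b, (IsC1 D ∨ IsPC1 D ∨ IsPolygon D ∨
            (IsOpen D ∧ Bornology.IsBounded D ∧ Convex ℝ D) ∨ IsLip K D) → StdBC b →
          LocDiff D (crit J D b) (inDom J lam V (β lam) D b) (Zσ lam) (Zε lam) ∧
            Identity D (crit J D b) (inDom J lam V (β lam) D b) (Zσ lam) (Zε lam) ∧
            DistDiff D (crit J D b) (inDom J lam V (β lam) D b) (Zσ lam) (Zε lam) ∧
            (P144Y.Nice D b → (∀ p, Good D p →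
              Lim (inDom J lam V (β lam) D b) p (Zσ lam ^ p.n * Zε lam ^ p.m * CD D b p)) ∧
              FieldLim D (inDom J lam V (β lam) D b) (Zσ lam) (νD D b) ∧
              DistLim D (inDom J lam V (β lam) D b) (Zσ lam) (Zε lam) (CD D b))

/-- Block T: the assembly. -/
def BlkT : Prop := BlkA → BlkP → BlkB → BlkC → BlkH → BlkI → BlkZ → Final

end Vale.Agent.P144DD
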