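import Vale.Agent.P144F.Mom

/-!
Sums over indices with prescribed coincidences.
-/

namespace Vale.Agent.P144DD

open MeasureTheory Vale.Agent.P144 Vale.Agent.P144F Finset

variable {ι κ : Type*}

/-- The indicator of the coincidences in `S`. -/
noncomputable def eqI [DecidableEq κ] (S : Finset (ι × ι)) (b : ι → κ) : ℝ :=
  ∏ e ∈ S, if b e.1 = b e.2 then 1 else 0

theorem eqI_ne [DecidableEq κ] {S : Finset (ι × ι)} {b : ι → κ} (h : eqI S b ≠ 0) :
    ∀ e ∈ S, b e.1 = b e.2 := fun e he => by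
  simpa using prod_ne_zero_iff.1 h e he

theorem eqI_one [DecidableEq κ] {S : Finset (ι × ι)} {b : ι → κ} (h : ∀ e ∈ S, b e.1 = b e.2) :
    eqI S b = 1 := prod_eq_one fun e he => if_pos (h e he)

theorem abs_eqI [DecidableEq κ] (S : Finset (ι × ι)) (b : ι → κ) : |eqI S b| ≤ 1 := by
  by_cases h : eqI S b = 0
  · simp [h]
  · simp [eqI_one (eqI_ne h)]

/-- The indicator of distinct indices. -/
noncomputable def gI [Fintype ι] [DecidableEq κ] (b : ι → κ) : ℝ :=
  ∏ e ∈ (univ : Finset ι).offDiag, (1 - if b e.1 = b e.2 then 1 else 0)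

theorem gI_ne [Fintype ι] [DecidableEq κ] {b : ι → κ} (h : gI b ≠ 0) {i j : ι} (hij : i ≠ j) :
    b i ≠ b j := by
  simpa [sub_eq_zero] using prod_ne_zero_iff.1 h (i, j) (by simpa using hij)

theorem abs_gI [Fintype ι] [DecidableEq κ] (b : ι → κ) : |gI b| ≤ 1 := by
  rw [gI, abs_prod]
  refine prod_le_one (fun _ _ => abs_nonneg _) fun e _ => ?_
  split_ifs <;> simp

theorem gI_add [Fintype ι] [DecidableEq ι] [DecidableEq κ] (b : ι → κ) :
    gI b - ∑ S ∈ (univ : Finset ι).offDiag.powerset.erase ∅, (-1) ^ S.card * eqI S b = 1 := by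
  simp only [gI, sub_eq_add_neg, prod_one_add, prod_neg]
  rw [← add_sum_erase _ _ (empty_mem_powerset _)]
  simp [eqI]

variable [Fintype κ]

theorem blk_sq {x : ι → κ → ℝ} {u : ι → ℝ} (h0 : ∀ i, 0 ≤ u i) (h2 : ∀ i, ∑ c, x i c ^ 2 ≤ u i ^ 2)
    {B : Finset ι} (hB : B.Nonempty) : ∑ c, (∏ i ∈ B, x i c) ^ 2 ≤ (∏ i ∈ B, u i) ^ 2 := by
  induction hB using Finset.Nonempty.cons_induction with
  | singleton i => simpa using h2 i
  | cons i B hi _ ih =>
    simp only [prod_cons]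
    exact (cs (h0 i) (prod_nonneg fun i _ => h0 i) (h2 i) ih).2

theorem blk_le {x : ι → κ → ℝ} {u : ι → ℝ} (h0 : ∀ i, 0 ≤ u i) (h2 : ∀ i, ∑ c, x i c ^ 2 ≤ u i ^ 2)
    {B : Finset ι} (hB : B.Nonempty) (h1 : ∀ i ∈ B, |∑ c, x i c| ≤ u i ∨ ∃ j ∈ B, j ≠ i) :
    |∑ c, ∏ i ∈ B, x i c| ≤ ∏ i ∈ B, u i := by
  induction hB using Finset.Nonempty.cons_induction with
  | singleton i => simpa using h1
  | cons i B hi hB _ =>
    simp only [prod_cons]
    exact (cs (h0 i) (prod_nonneg fun i _ => h0 i) (h2 i) (blk_sq h0 h2 hB)).1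

variable [Fintype ι] [DecidableEq ι] [DecidableEq κ]

/-- The sum over the indices with the coincidences in `S`. -/
noncomputable def PS (S : Finset (ι × ι)) (x : ι → κ → ℝ) : ℝ :=
  ∑ b : ι → κ, eqI S b * ∏ i, x i (b i)

theorem PS_le (S : Finset (ι × ι)) {x : ι → κ → ℝ} {u : ι → ℝ} (h0 : ∀ i, 0 ≤ u i)
    (h2 : ∀ i, ∑ c, x i c ^ 2 ≤ u i ^ 2)
    (h1 : ∀ i, |∑ c, x i c| ≤ u i ∨ ∃ j ≠ i, (i, j) ∈ S ∨ (j, i) ∈ S) : |PS S x| ≤ ∏ i, u i := by
  classical
  set r := Relation.EqvGen.setoid fun i j => (i, j) ∈ S with hr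
  have e : PS S x = ∏ q : Quotient r, ∑ c, ∏ i with Quotient.mk r i = q, x i c := by
    rw [prod_univ_sum, Fintype.piFinset_univ, PS]
    symm
    refine sum_of_injOn (fun b i => b (Quotient.mk r i)) (fun b _ b' _ h => funext fun q =>
      Quotient.inductionOn q fun i => congrFun h i) (fun _ _ => mem_univ _) (fun b _ hb => ?_)
      fun b _ => ?_
    · refine mul_eq_zero_of_left (by_contra fun h => hb ⟨Quotient.lift b
        (Setoid.eqvGen_le (s := Setoid.ker b) fun i j hij => eqI_ne h (i, j) hij), by simp, rfl⟩) _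
    · rw [eqI_one (b := fun i => b (Quotient.mk r i)) fun e he => congrArg b
        (Quotient.sound (Relation.EqvGen.rel _ _ he)), one_mul,
        ← prod_fiberwise univ (Quotient.mk r)]
      exact prod_congr rfl fun q _ => prod_congr rfl fun i hi => by
        simp only [(mem_filter.1 hi).2]
  rw [e, abs_prod, ← prod_fiberwise univ (Quotient.mk r) u]
  refine prod_le_prod (fun _ _ => abs_nonneg _) fun q _ => blk_le h0 h2
    (Quotient.inductionOn q fun i => ⟨i, by simp⟩) fun i hi => (h1 i).imp_right ?_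
  rintro ⟨j, hj, h⟩
  refine ⟨j, mem_filter.2 ⟨mem_univ _, Eq.trans (Quotient.sound ?_) (mem_filter.1 hi).2⟩, hj⟩
  exact h.elim (fun h => Relation.EqvGen.symm _ _ (Relation.EqvGen.rel _ _ h))
    fun h => Relation.EqvGen.rel _ _ h

omit [DecidableEq ι] in
theorem prod_le_one_add {v : ι → ℝ} (h0 : ∀ i, 0 ≤ v i) :
    ∏ i, v i ≤ 1 + ∑ i, v i ^ (2 * Fintype.card ι) := by
  have s0 : 0 ≤ ∑ i, v i ^ (2 * Fintype.card ι) := sum_nonneg fun i _ => pow_nonneg (h0 i) _
  by_cases h : ∀ i, v i ≤ 1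
  · linarith [prod_le_one (s := univ) (fun i _ => h0 i) fun i _ => h i]
  push Not at h
  obtain ⟨i, hi⟩ := h
  obtain ⟨j, -, hj⟩ := exists_max_image univ v ⟨i, mem_univ i⟩
  have k1 := prod_le_prod (s := univ) (fun i _ => h0 i) hj
  rw [prod_const, card_univ] at k1
  have k2 := pow_le_pow_right₀ (hi.le.trans (hj i (mem_univ i)))
    (by omega : Fintype.card ι ≤ 2 * Fintype.card ι)
  linarith [single_le_sum (f := fun i => v i ^ (2 * Fintype.card ι))
    (fun i _ => pow_nonneg (h0 i) _) (mem_univ j)]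

theorem bm_PS (S : Finset (ι × ι)) {y : ι → κ → Config → ℝ} (h : ∀ i c, Bm (y i c)) :
    Bm fun σ => PS S fun i c => y i c σ :=
  Bm.sum _ fun _ _ => (Bm.const _).mul (Bm.prod _ fun i _ => h i _)

theorem int_PS (S : Finset (ι × ι)) {y : ι → κ → Config → ℝ} (h : ∀ i c, Bm (y i c))
    (μ : Measure Config) [IsProbabilityMeasure μ] {l : ι → ℝ} (hl : ∀ i, 0 < l i)
    (h2 : ∀ i, ∫ σ, (∑ c, y i c σ ^ 2) ^ Fintype.card ι ∂μ ≤ l i ^ (2 * Fintype.card ι))
    (h1 : ∀ i, ∫ σ, (∑ c, y i c σ) ^ (2 * Fintype.card ι) ∂μ ≤ l i ^ (2 * Fintype.card ι) ∨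
      ∃ j ≠ i, (i, j) ∈ S ∨ (j, i) ∈ S) :
    |∫ σ, PS S (fun i c => y i c σ) ∂μ| ≤ (1 + 2 * Fintype.card ι) * ∏ i, l i := by
  classical
  set N := Fintype.card ι with hN
  set t : ι → ℝ := fun i => if ∃ j ≠ i, (i, j) ∈ S ∨ (j, i) ∈ S then 0 else 1 with ht
  set V : ι → Config → ℝ := fun i σ => (l i ^ (2 * N))⁻¹ *
    (t i * (∑ c, y i c σ) ^ (2 * N) + (∑ c, y i c σ ^ 2) ^ N) with hV
  have b1 := fun i => (Bm.const (t i)).mul ((Bm.sum univ fun c _ => h i c).pow (2 * N))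
  have b2 := fun i => (Bm.sum univ fun c _ => (h i c).pow 2).pow N
  have bV : ∀ i, Bm (V i) := fun i => (Bm.const _).mul ((b1 i).add (b2 i))
  have P0 : 0 < ∏ i, l i := prod_pos fun i _ => hl i
  have pt : ∀ σ, |PS S fun i c => y i c σ| ≤ (∏ i, l i) * (1 + ∑ i, V i σ) := fun σ => by
    set u : ι → ℝ := fun i => max (t i * |∑ c, y i c σ|) √(∑ c, y i c σ ^ 2) with hu
    have u0 : ∀ i, 0 ≤ u i := fun i => le_max_of_le_right (Real.sqrt_nonneg _)
    refine (PS_le S u0 (fun i => (Real.sqrt_le_left (u0 i)).1 (le_max_right _ _)) fun i => ?_).trans ?_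
    · refine or_iff_not_imp_right.2 fun hi => le_max_of_le_left ?_
      rw [ht]
      simp only [if_neg hi, one_mul, le_refl]
    rw [← div_le_iff₀' P0, ← prod_div_distrib]
    refine (prod_le_one_add fun i => div_nonneg (u0 i) (hl i).le).trans
      (add_le_add_right (sum_le_sum fun i _ => ?_) _)
    rw [div_pow, div_eq_inv_mul]
    refine mul_le_mul_of_nonneg_left ?_ (inv_nonneg.2 (pow_nonneg (hl i).le _))
    have W0 : 0 ≤ ∑ c, y i c σ ^ 2 := sum_nonneg fun _ _ => sq_nonneg _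
    have W1 := pow_nonneg W0 N
    have e : √(∑ c, y i c σ ^ 2) ^ (2 * N) = (∑ c, y i c σ ^ 2) ^ N := by
      rw [pow_mul, Real.sq_sqrt W0]
    have W2 := (even_two_mul N).pow_nonneg (∑ c, y i c σ)
    simp only [hu, ht]
    split_ifs
    · rw [zero_mul, zero_mul, zero_add, max_eq_right (Real.sqrt_nonneg _), e]
    · rw [one_mul, one_mul]
      rcases max_choice |∑ c, y i c σ| √(∑ c, y i c σ ^ 2) with e' | e' <;> rw [e']
      · rw [(even_two_mul N).pow_abs]
        linarith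
      · linarith
  have bS := Bm.sum univ fun i _ => bV i
  refine abs_integral_le_integral_abs.trans ((integral_mono ((bm_PS S h).abs.int μ)
    (((Bm.const _).mul ((Bm.const 1).add bS)).int μ) pt).trans ?_)
  rw [integral_const_mul, integral_add (integrable_const _) (bS.int μ), integral_const,
    probReal_univ, one_smul, integral_finsetSum _ fun i _ => (bV i).int μ, mul_comm]
  refine mul_le_mul_of_nonneg_right (add_le_add_right ((sum_le_card_nsmul _ _ 2 fun i _ => ?_).trans_eq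
    (by rw [card_univ, nsmul_eq_mul, mul_comm])) _) P0.le
  have p := pow_pos (hl i) (2 * N)
  rw [hV]
  dsimp only
  rw [integral_const_mul, integral_add ((b1 i).int μ) ((b2 i).int μ), integral_const_mul,
    inv_mul_le_iff₀ p]
  simp only [ht]
  split_ifs with hi
  · linarith [h2 i]
  · linarith [h2 i, (h1 i).resolve_right hi]

end Vale.Agent.P144DD
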