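import Mathlib.Analysis.Distribution.SchwartzSpace.Fourier
import Mathlib.Analysis.Normed.Lp.MeasurableSpace
import Mathlib.MeasureTheory.Measure.Lebesgue.Complex
import Mathlib.MeasureTheory.Constructions.Pi

/-!
Smooth test functions are superpositions of products of functions of one point.
-/

namespace Vale.Agent.P144DD

open Filter MeasureTheory Finset Real
open scoped FourierTransform

variable {ι : Type*} [Fintype ι]

/-- The weight `W` is bounded by `M` against products of bounded functions. -/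
def PN (W : (ι → ℂ) → ℝ) (M : ℝ) : Prop :=
  ∀ f : ι → ℂ → ℝ, (∀ i, Measurable (f i)) → (∀ i z, |f i z| ≤ 1) →
    |∫ z, (∏ i, f i (z i)) * W z| ≤ M

variable {W : (ι → ℂ) → ℝ} {M : ℝ}

theorem int_cx (hW : Integrable W) {g : ι → ℂ → ℂ} (hm : ∀ i, Measurable (g i))
    (hb : ∀ i z, ‖g i z‖ ≤ 1) : Integrable fun z : ι → ℂ => (∏ i, g i (z i)) * W z :=
  hW.ofReal.bdd_mul (c := 1) (Finset.measurable_prod _ fun i _ =>
    (hm i).comp (measurable_pi_apply i)).aestronglyMeasurable (Eventually.of_forall fun z => by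
      rw [norm_prod]
      exact prod_le_one (fun _ _ => norm_nonneg _) fun i _ => hb i _)

theorem PN.cx (h : PN W M) (hW : Integrable W) {g : ι → ℂ → ℂ} (hm : ∀ i, Measurable (g i))
    (hb : ∀ i z, ‖g i z‖ ≤ 1) : ‖∫ z, (∏ i, g i (z i)) * W z‖ ≤ 2 ^ Fintype.card ι * M := by
  classical
  set r : ι → Bool → ℂ → ℝ := fun i t z => if t then (g i z).re else (g i z).im with hr
  set c : Bool → ℂ := fun t => if t then 1 else Complex.I with hc
  have r1 : ∀ i t, Measurable (r i t) := fun i t => by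
    cases t
    exacts [Complex.measurable_im.comp (hm i), Complex.measurable_re.comp (hm i)]
  have r2 : ∀ i t z, |r i t z| ≤ 1 := fun i t z => by
    cases t
    exacts [(Complex.abs_im_le_norm _).trans (hb i z), (Complex.abs_re_le_norm _).trans (hb i z)]
  have e : ∀ z : ι → ℂ, (∏ i, g i (z i)) * W z =
      ∑ τ : ι → Bool, (∏ i, c (τ i)) * ((∏ i, (r i (τ i) (z i) : ℂ)) * W z) := fun z => by
    have : ∀ i, g i (z i) = ∑ t, c t * r i t (z i) := fun i => by
      simp [hr, hc, mul_comm Complex.I]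
    simp only [this, prod_univ_sum, Fintype.piFinset_univ, prod_mul_distrib, sum_mul, mul_assoc]
  simp only [e]
  rw [integral_finsetSum _ fun τ _ => (int_cx hW (g := fun i z => r i (τ i) z)
    (fun i => Complex.measurable_ofReal.comp (r1 i _)) fun i z => by simpa using r2 i _ z).const_mul _]
  refine (norm_sum_le _ _).trans ((sum_le_card_nsmul _ _ M fun τ _ => ?_).trans_eq (by simp))
  have c1 : ∀ t, ‖c t‖ = 1 := fun t => by cases t <;> simp [hc]
  rw [integral_const_mul, norm_mul, norm_prod]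
  simp only [c1, prod_const_one, one_mul, ← Complex.ofReal_prod, ← Complex.ofReal_mul]
  rw [integral_complex_ofReal, Complex.norm_real]
  exact h _ (fun i => r1 i _) fun i => r2 i _

/-- The plane wave. -/
noncomputable def ex (u v : ℂ) : ℂ := Complex.exp ((2 * π * inner ℝ u v : ℝ) * Complex.I)

theorem norm_ex (u v : ℂ) : ‖ex u v‖ = 1 := Complex.norm_exp_ofReal_mul_I _

theorem cont_ex : Continuous fun p : ℂ × ℂ => ex p.1 p.2 := by
  unfold ex
  fun_prop

theorem ex_sub (u v w : ℂ) : ‖ex u v - ex u w‖ ≤ 8 * ‖u‖ * ‖v - w‖ := by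
  have e : ex u v - ex u w =
      ex u w * (Complex.exp (Complex.I * (2 * π * inner ℝ u (v - w) : ℝ)) - 1) := by
    rw [mul_sub, mul_one, ex, ex, ← Complex.exp_add, inner_sub_right]
    congr 2
    push_cast
    ring
  rw [e, norm_mul, norm_ex, one_mul]
  refine Real.norm_exp_I_mul_ofReal_sub_one_le.trans ?_
  rw [Real.norm_eq_abs, abs_mul, abs_of_pos two_pi_pos, mul_assoc 8]
  exact mul_le_mul (by linarith [pi_le_four]) (abs_real_inner_le_norm _ _) (abs_nonneg _)
    (by norm_num)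

theorem four {F : (ι → ℂ) → ℝ} (hF : ContDiff ℝ (⊤ : ℕ∞) F) (hc : HasCompactSupport F) :
    ∃ G : PiLp 2 (fun _ : ι => ℂ) → ℂ, Continuous G ∧ Integrable (fun ξ => (1 + ‖ξ‖) * ‖G ξ‖) ∧
      ∀ z, (F z : ℂ) = ∫ ξ, G ξ * ∏ i, ex (ξ i) (z i) := by
  set e := PiLp.continuousLinearEquiv 2 ℝ fun _ : ι => ℂ with he
  have h1 : HasCompactSupport fun v => (F (e v) : ℂ) :=
    (hc.comp_homeomorph e.toHomeomorph).comp_left Complex.ofReal_zero
  set f := h1.toSchwartzMap (Complex.ofRealCLM.contDiff.comp (hF.comp e.contDiff)) with hf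
  refine ⟨𝓕 ⇑f, (𝓕 f).continuous, ?_, fun z => ?_⟩
  · exact (((𝓕 f).integrable_pow_mul volume 0).add ((𝓕 f).integrable_pow_mul volume 1)).congr
      (Eventually.of_forall fun ξ => by simp [add_mul, SchwartzMap.fourier_coe])
  · have := congrFun (f.continuous.fourierInv_fourier_eq f.integrable (𝓕 f).integrable) (e.symm z)
    rw [fourierInv_eq'] at this
    refine Eq.trans (b := f (e.symm z)) rfl (this.symm.trans (integral_congr_ae
      (Eventually.of_forall fun ξ => ?_)))
    simp only [smul_eq_mul, ex, ← Complex.exp_sum, PiLp.inner_apply, ← sum_mul,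
      ← Complex.ofReal_sum, ← mul_sum]
    exact mul_comm _ _

theorem sup_le {V : Type*} [MeasureSpace V] [SFinite (volume : Measure V)] {G : V → ℂ}
    (hG : Integrable G) {w : V → ℝ} (hw : Integrable fun ξ => w ξ * ‖G ξ‖) (hW : Integrable W)
    {F : (ι → ℂ) → ℝ} {k : (ι → ℂ) → V → ℂ} (hk : Measurable (Function.uncurry k))
    (hb : ∀ z ξ, ‖k z ξ‖ ≤ 2) (e : ∀ z, (F z : ℂ) = ∫ ξ, G ξ * k z ξ) {Y : ℝ}
    (hY : ∀ ξ, ‖∫ z, k z ξ * W z‖ ≤ w ξ * Y) : |∫ z, F z * W z| ≤ (∫ ξ, w ξ * ‖G ξ‖) * Y := by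
  rw [← Real.norm_eq_abs, ← Complex.norm_real, ← integral_complex_ofReal, ← integral_mul_const]
  simp only [Complex.ofReal_mul, e, ← integral_mul_const]
  rw [integral_integral_swap]
  · refine norm_integral_le_of_norm_le (hw.mul_const Y) (Eventually.of_forall fun ξ => ?_)
    simp only [mul_assoc (G ξ), integral_const_mul, norm_mul]
    exact (mul_le_mul_of_nonneg_left (hY ξ) (norm_nonneg _)).trans_eq (by ring)
  · refine ((hW.ofReal.mul_prod hG).mul_bdd hk.aestronglyMeasurable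
      (Eventually.of_forall fun p => hb p.1 p.2)).congr (Eventually.of_forall fun p =>
        (mul_assoc _ _ _).trans (mul_comm _ _))

theorem four_le {F : (ι → ℂ) → ℝ} (hF : ContDiff ℝ (⊤ : ℕ∞) F) (hc : HasCompactSupport F) :
    ∃ C, 0 ≤ C ∧ ∀ W M, Integrable W → PN W M → |∫ z, F z * W z| ≤ C * M ∧
      ∀ p p', p ≠ p' → (∀ z, z p = z p' → F z = 0) → ∀ δ > 0, ∀ c : ℂ → ℂ, Measurable c →
        (∀ z, ‖z - c z‖ ≤ δ) → (∀ z, W z ≠ 0 → c (z p) = c (z p')) →
          |∫ z, F z * W z| ≤ C * (δ * M) := by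
  classical
  obtain ⟨G, g1, g2, g3⟩ := four hF hc
  have iG : Integrable G := g2.mono' g1.aestronglyMeasurable (Eventually.of_forall fun ξ =>
    le_mul_of_one_le_left (norm_nonneg _) (le_add_of_nonneg_right (norm_nonneg _)))
  have I0 : 0 ≤ ∫ ξ, (1 + ‖ξ‖) * ‖G ξ‖ := integral_nonneg fun ξ => by positivity
  have n1 : ∀ (z : ι → ℂ) (ξ : PiLp 2 fun _ : ι => ℂ), ‖∏ i, ex (ξ i) (z i)‖ = 1 := fun z ξ => by
    simp [norm_ex]
  have c1 : Continuous fun p : (ι → ℂ) × PiLp 2 fun _ : ι => ℂ => ∏ i, ex (p.2 i) (p.1 i) :=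
    continuous_finsetProd _ fun i _ => cont_ex.comp (f := fun p : (ι → ℂ) ×
      PiLp 2 fun _ : ι => ℂ => (p.2 i, p.1 i)) (by fun_prop)
  have me : ∀ u, Measurable (ex u) := fun u =>
    (cont_ex.comp (Continuous.prodMk_right u)).measurable
  refine ⟨(∫ ξ, (1 + ‖ξ‖) * ‖G ξ‖) * (16 * 2 ^ Fintype.card ι), by positivity,
    fun W M hW h => ?_⟩
  have M0 : 0 ≤ M := (abs_nonneg _).trans (h 0 (fun _ => measurable_const) (by simp))
  refine ⟨?_, fun p p' hp h0 δ hδ c hm hz hW' => ?_⟩
  · rw [mul_assoc]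
    refine sup_le (k := fun z ξ => ∏ i, ex (ξ i) (z i)) iG g2 hW c1.measurable
      (fun z ξ => (n1 z ξ).trans_le one_le_two) g3 fun ξ =>
      (h.cx hW (fun i => me _) fun i z => (norm_ex _ _).le).trans ?_
    have : 0 ≤ 2 ^ Fintype.card ι * M := by positivity
    nlinarith [norm_nonneg ξ]
  rw [mul_assoc]
  have c2 : Continuous fun z : ι → ℂ => Function.update z p' (z p) := by fun_prop
  refine sup_le (k := fun z ξ => ∏ i, ex (ξ i) (z i) - ∏ i, ex (ξ i) (Function.update z p' (z p) i))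
    iG g2 hW (c1.sub (c1.comp (c2.prodMap continuous_id))).measurable
    (fun z ξ => (norm_sub_le _ _).trans_eq (by rw [n1, n1]; norm_num)) (fun z => ?_) fun ξ => ?_
  · have i1 : ∀ z : ι → ℂ, Integrable fun ξ : PiLp 2 fun _ : ι => ℂ => G ξ * ∏ i, ex (ξ i) (z i) :=
      fun z => iG.mul_bdd (c1.comp (Continuous.prodMk_right z)).aestronglyMeasurable
        (Eventually.of_forall fun ξ => (n1 z ξ).le)
    simp only [mul_sub]
    rw [integral_sub (i1 _) (i1 _), ← g3, ← g3, h0 (Function.update z p' (z p)) (by simp [hp]),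
      Complex.ofReal_zero, sub_zero]
  set l : ℝ := 8 * (1 + ‖ξ‖) * δ with hl
  have l0 : 0 < l := by positivity
  set d : ℂ → ℂ := fun v => (ex (ξ p') v - ex (ξ p') (c v)) / l with hd
  have d1 : Measurable d := ((me _).sub ((me _).comp hm)).div_const _
  have d2 : ∀ v, ‖d v‖ ≤ 1 := fun v => by
    rw [hd, norm_div, Complex.norm_real, Real.norm_of_nonneg l0.le, div_le_one l0]
    refine (ex_sub _ _ _).trans (mul_le_mul ?_ (hz v) (norm_nonneg _) (by positivity))
    linarith [PiLp.norm_apply_le ξ p']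
  set g : ι → ℂ → ℂ := fun i v => if i = p' then d v else ex (ξ i) v with hg
  set g' : ι → ℂ → ℂ := fun i v => (if i = p' then 1 else ex (ξ i) v) * if i = p then d v else 1
    with hg'
  have m1 : ∀ i, Measurable (g i) := fun i => by
    by_cases e : i = p' <;> simp only [hg, e, if_true, if_false, d1, me]
  have m2 : ∀ i, Measurable (g' i) := fun i => by
    refine Measurable.mul ?_ ?_ <;> split_ifs
    exacts [measurable_const, me _, d1, measurable_const]
  have b1 : ∀ i v, ‖g i v‖ ≤ 1 := fun i v => by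
    simp only [hg]
    split_ifs
    exacts [d2 v, (norm_ex _ _).le]
  have b2 : ∀ i v, ‖g' i v‖ ≤ 1 := fun i v => by
    rw [hg', norm_mul]
    refine mul_le_one₀ ?_ (norm_nonneg _) ?_ <;> split_ifs <;> simp [norm_ex, d2]
  have e : ∀ z : ι → ℂ, (∏ i, ex (ξ i) (z i) - ∏ i, ex (ξ i) (Function.update z p' (z p) i)) * W z =
      l * ((∏ i, g i (z i)) * W z - (∏ i, g' i (z i)) * W z) := fun z => by
    by_cases hz : W z = 0
    · simp [hz]
    have e1 : ∀ u : ι → ℂ, (∀ i ≠ p', u i = ex (ξ i) (z i)) →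
        ∏ i, u i = u p' * ∏ i ∈ univ.erase p', ex (ξ i) (z i) := fun u hu => by
      rw [← mul_prod_erase _ _ (mem_univ p'), prod_congr rfl fun i hi => hu i (ne_of_mem_erase hi)]
    have l1 : (l : ℂ) ≠ 0 := by exact_mod_cast l0.ne'
    simp only [hg', prod_mul_distrib, prod_ite_eq', mem_univ, if_true]
    rw [e1 _ fun _ _ => rfl, e1 _ fun i hi => by rw [Function.update_of_ne hi],
      e1 (fun i => g i (z i)) fun i hi => if_neg hi,
      e1 (fun i => if i = p' then 1 else ex (ξ i) (z i)) fun i hi => if_neg hi]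
    simp only [hg, hd, if_true, Function.update_self, hW' z hz]
    field_simp
    ring
  simp only [e]
  rw [integral_const_mul, integral_sub (int_cx hW m1 b1) (int_cx hW m2 b2), norm_mul,
    Complex.norm_real, Real.norm_of_nonneg l0.le]
  refine (mul_le_mul_of_nonneg_left ((norm_sub_le _ _).trans
    (add_le_add (h.cx hW m1 b1) (h.cx hW m2 b2))) l0.le).trans_eq ?_
  rw [hl]
  ring

end Vale.Agent.P144DD
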