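import Vale.Agent.P144DD.Ker
import Vale.Agent.P144DD.Cmb
import Vale.Agent.P144DD.Four

/-!
The contribution of close points to the smeared correlations is small.
-/

namespace Vale.Agent.P144DD

open Filter Topology MeasureTheory Vale.Agent.P144 Vale.Agent.P144F Finset

/-- The colour of a cell. -/
def col (k : ℕ) (u : Site) : Site := (u.1 % k, u.2 % k)

/-- The coarse cell. -/
def cg (k : ℕ) (j u : Site) : Site := ((u.1 - j.1) / k, (u.2 - j.2) / k)

section

variable {k : ℕ} {j : Site} {s : ℝ} {z w : ℂ}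

theorem cg_inj {u v : Site} (h : col k u = col k v) (h' : cg k j u = cg k j v) : u = v := by
  have e : ∀ u v j : ℤ, u % k = v % k → (u - j) / k = (v - j) / k → u = v := fun u v j h h' => by
    have e1 := Int.mul_ediv_add_emod (u - j) k
    have e2 := Int.mul_ediv_add_emod (v - j) k
    rw [Int.sub_emod, h, ← Int.sub_emod, h'] at e1
    linarith
  exact Prod.ext (e _ _ _ (congrArg Prod.fst h) (congrArg Prod.fst h'))
    (e _ _ _ (congrArg Prod.snd h) (congrArg Prod.snd h'))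

theorem cg_near (hk : 0 < k) (hs : 0 < s) (h : cg k j (fl s z) = cg k j (fl s w)) :
    ‖z - w‖ ≤ 2 * k * s := by
  have hk' : (0 : ℤ) < k := by exact_mod_cast hk
  have e0 : ∀ (u v : ℝ) (j : ℤ), (⌊u / s⌋ - j) / k = (⌊v / s⌋ - j) / k → u - v ≤ k * s := by
    intro u v j h
    have e1 := Int.mul_ediv_add_emod (⌊u / s⌋ - j) k
    have e2 := Int.mul_ediv_add_emod (⌊v / s⌋ - j) k
    have e3 := Int.emod_lt_of_pos (⌊u / s⌋ - j) hk'
    have e4 := Int.emod_nonneg (⌊v / s⌋ - j) hk'.ne'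
    rw [h] at e1
    have e5 : (⌊u / s⌋ : ℝ) + 1 ≤ ⌊v / s⌋ + k := by exact_mod_cast (by omega : _ + 1 ≤ _ + (k : ℤ))
    rw [← div_le_iff₀ hs, sub_div]
    linarith [Int.lt_floor_add_one (u / s), Int.floor_le (v / s)]
  have e : ∀ (u v : ℝ) (j : ℤ), (⌊u / s⌋ - j) / k = (⌊v / s⌋ - j) / k → |u - v| ≤ k * s :=
    fun u v j h => abs_sub_le_iff.2 ⟨e0 u v j h, e0 v u j h.symm⟩
  have h1 := e _ _ _ (congrArg Prod.fst h)
  have h2 := e _ _ _ (congrArg Prod.snd h)
  have := Complex.norm_le_abs_re_add_abs_im (z - w)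
  rw [Complex.sub_re, Complex.sub_im] at this
  linarith

theorem cg_far (hj : j ∈ Ico (0 : ℤ) k ×ˢ Ico (0 : ℤ) k) (hs : 0 < s)
    (h : cg k j (fl s z) ≠ cg k j (fl s w))
    (hz : (col k (fl s z)).1 ≠ j.1 ∧ (col k (fl s z)).2 ≠ j.2)
    (hw : (col k (fl s w)).1 ≠ j.1 ∧ (col k (fl s w)).2 ≠ j.2) : s ≤ ‖z - w‖ := by
  have e0 : ∀ (u v : ℝ) (j : ℤ), j ∈ Ico (0 : ℤ) k → (⌊u / s⌋ - j) / k < (⌊v / s⌋ - j) / k →
      ⌊v / s⌋ % k ≠ j → s ≤ v - u := by
    intro u v j hj h h'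
    rw [mem_Ico] at hj
    have hk' : (0 : ℤ) < k := by omega
    have e1 := Int.mul_ediv_add_emod (⌊u / s⌋ - j) k
    have e2 := Int.mul_ediv_add_emod (⌊v / s⌋ - j) k
    have e3 := Int.emod_lt_of_pos (⌊u / s⌋ - j) hk'
    have e4 := Int.emod_nonneg (⌊v / s⌋ - j) hk'.ne'
    have e5 : (⌊v / s⌋ - j) % k ≠ 0 := fun e => h' (by
      rw [show ⌊v / s⌋ = j + k * ((⌊v / s⌋ - j) / k) by omega, Int.add_mul_emod_self_left,
        Int.emod_eq_of_lt hj.1 hj.2])
    have e6 := mul_le_mul_of_nonneg_left (Int.add_one_le_of_lt h) hk'.le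
    rw [mul_add, mul_one] at e6
    simpa using floor_far (k := 1) (u := u) (v := v) hs (by omega)
  have e : ∀ (u v : ℝ) (j : ℤ), j ∈ Ico (0 : ℤ) k → (⌊u / s⌋ - j) / k ≠ (⌊v / s⌋ - j) / k →
      ⌊u / s⌋ % k ≠ j → ⌊v / s⌋ % k ≠ j → s ≤ |u - v| := fun u v j hj h h1 h2 => by
    rcases h.lt_or_gt with h | h
    · rw [abs_sub_comm]
      exact (e0 u v j hj h h2).trans (le_abs_self _)
    · exact (e0 v u j hj h h1).trans (le_abs_self _)
  rw [mem_product] at hj
  by_cases e1 : (cg k j (fl s z)).1 = (cg k j (fl s w)).1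
  · exact (e z.im w.im _ hj.2 (fun e' => h (Prod.ext e1 e')) hz.2 hw.2).trans
      (Complex.abs_im_le_norm (z - w))
  · exact (e z.re w.re _ hj.1 e1 hz.1 hw.1).trans (Complex.abs_re_le_norm (z - w))

end

variable {ι : Type*} [Fintype ι] [DecidableEq ι]

omit [DecidableEq ι] in
theorem exists_free (r : ι → Site) : ∃ j ∈ Ico (0 : ℤ) (Fintype.card ι + 1 : ℕ) ×ˢ
    Ico (0 : ℤ) (Fintype.card ι + 1 : ℕ), ∀ i, (r i).1 ≠ j.1 ∧ (r i).2 ≠ j.2 := by
  have e : ∀ u : ι → ℤ, ∃ t ∈ Ico (0 : ℤ) (Fintype.card ι + 1 : ℕ), ∀ i, u i ≠ t := fun u => by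
    obtain ⟨t, h1, h2⟩ := exists_mem_notMem_of_card_lt_card (s := univ.image u)
      (t := Ico (0 : ℤ) (Fintype.card ι + 1 : ℕ))
      (card_image_le.trans_lt (by rw [card_univ, Int.card_Ico]; omega))
    exact ⟨t, h1, fun i e => h2 (mem_image.2 ⟨i, mem_univ _, e⟩)⟩
  obtain ⟨t, t1, t2⟩ := e fun i => (r i).1
  obtain ⟨t', t3, t4⟩ := e fun i => (r i).2
  exact ⟨(t, t'), mem_product.2 ⟨t1, t3⟩, fun i => ⟨t2 i, t4 i⟩⟩

open Classical in
/-- The points of `K` in the cells of colour `c`. -/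
noncomputable def chi (K : Set ℂ) (k : ℕ) (s : ℝ) (c : Site) (v : ℂ) : ℝ :=
  if v ∈ K ∧ col k (fl s v) = c then 1 else 0

variable {K : Set ℂ} {k : ℕ} {s : ℝ}

theorem chi_ne {c : Site} {v : ℂ} (h : chi K k s c v ≠ 0) : v ∈ K ∧ col k (fl s v) = c :=
  by_contra fun e => h (if_neg e)

theorem abs_chi (c : Site) (v : ℂ) : |chi K k s c v| ≤ 1 := by
  unfold chi
  split_ifs <;> simp

theorem meas_chi (hK : MeasurableSet K) (c : Site) : Measurable (chi K k s c) :=
  measurable_const.ite (hK.inter (meas_fl s (MeasurableSet.of_discrete (s := {u | col k u = c}))))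
    measurable_const

theorem pn_le (hK : MeasurableSet K) {R : ℝ} (hR : ∀ z ∈ K, ‖z‖ ≤ R) (hs : 0 < s)
    {U : ι → ℂ → Config → ℝ} {b : ι → ℝ} (hU : ∀ i, Ker (U i) (b i)) (μ : Measure Config)
    [IsProbabilityMeasure μ] (hN : Fintype.card ι ≠ 0) (S : Finset (ι × ι)) (r : ι → Site) (j : Site)
    {y l : ι → ℝ} (hl : ∀ i, 0 < l i) (hy : ∀ i, 0 ≤ y i)
    (h1 : ∀ i f c, Tb K f → ∫ σ, fd (U i) (pc s f c) σ ^ (2 * Fintype.card ι) ∂μ ≤
      y i ^ (2 * Fintype.card ι)) (h2 : ∀ i, (2 * ⌈R / s⌉₊ + 1) * y i ≤ l i)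
    (h3 : ∀ i, (∀ f, Tb K f → ∫ σ, fd (U i) f σ ^ (2 * Fintype.card ι) ∂μ ≤
      l i ^ (2 * Fintype.card ι)) ∨ ∃ j ≠ i, (i, j) ∈ S ∨ (j, i) ∈ S) :
    PN (fun z => (∏ i, chi K k s (r i) (z i)) * eqI S (fun i => cg k j (fl s (z i))) * kc μ U z)
      ((1 + 2 * Fintype.card ι) * ∏ i, l i) := by
  intro f f1 f2
  set g : ℂ → Site := fun v => cg k j (fl s v) with hg
  set I := (bx ⌈R / s⌉₊).image (cg k j) with hI
  set f' : ι → ℂ → ℝ := fun i v => f i v * chi K k s (r i) v with hf'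
  have t1 : ∀ i, Tb K (f' i) := fun i => ⟨(f1 i).mul (meas_chi hK _), fun v => by
    rw [hf', abs_mul]
    exact mul_le_one₀ (f2 i v) (abs_nonneg _) (abs_chi _ _),
    fun v hv => (chi_ne (right_ne_zero_of_mul hv)).1⟩
  have cv : ∀ {f : ℂ → ℝ}, Tb K f → ∀ z, f z ≠ 0 → fl s z ∈ bx ⌈R / s⌉₊ :=
    fun hf z hz => mem_bx hs (hR z (hf.2.2 z hz)) (Nat.le_ceil _)
  have mI : ∀ i v, f' i v ≠ 0 → g v ∈ I := fun i v hv => mem_image_of_mem _ (cv (t1 i) v hv)
  set h : ι → I → ℂ → ℝ := fun i c v => if g v = c then f' i v else 0 with hh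
  have hne : ∀ i c v, h i c v ≠ 0 → g v = c ∧ f' i v ≠ 0 := fun i c v hv => by
    simp only [hh] at hv
    split_ifs at hv with e
    exacts [⟨e, hv⟩, absurd rfl hv]
  have t2 : ∀ i c, Tb K (h i c) := fun i c => by
    refine ⟨(t1 i).1.ite (meas_fl s (MeasurableSet.of_discrete (s := {u | cg k j u = c})))
      measurable_const, fun v => ?_, fun v hv => (t1 i).2.2 v (hne i c v hv).2⟩
    simp only [hh]
    split_ifs
    exacts [(t1 i).2.1 v, by simp]
  have mi := fun i c => (t2 i c).mi hs (cv (t2 i c))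
  have bm := fun i c => (hU i).bm (mi i c)
  have pt : ∀ z : ι → ℂ, (∏ i, f i (z i)) * ((∏ i, chi K k s (r i) (z i)) *
      eqI S (fun i => g (z i)) * kc μ U z) =
      ∑ u : ι → I, eqI S u * ((∏ i, h i (u i) (z i)) * kc μ U z) := fun z => by
    rw [← mul_assoc, ← mul_assoc, ← prod_mul_distrib]
    by_cases hz : ∀ i, f' i (z i) ≠ 0
    · rw [sum_eq_single (fun i => ⟨g (z i), mI i _ (hz i)⟩) (fun u _ hu => ?_) (by simp)]
      · simp only [hh, if_true, eqI, Subtype.mk.injEq]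
        ring
      · obtain ⟨i, hi⟩ := Function.ne_iff.1 hu
        rw [prod_eq_zero (mem_univ i) (if_neg fun e => hi (Subtype.ext e.symm)), zero_mul, mul_zero]
    · push Not at hz
      obtain ⟨i, hi⟩ := hz
      rw [prod_eq_zero (mem_univ i) hi, zero_mul, zero_mul]
      refine (sum_eq_zero fun u _ => ?_).symm
      rw [prod_eq_zero (mem_univ i) (by simp only [hh, hi, ite_self]), zero_mul, mul_zero]
  have e : ∫ z : ι → ℂ, (∏ i, f i (z i)) * ((∏ i, chi K k s (r i) (z i)) *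
      eqI S (fun i => g (z i)) * kc μ U z) = ∫ σ, PS S (fun i c => fd (U i) (h i c) σ) ∂μ := by
    simp only [pt, PS]
    rw [integral_finsetSum _ fun u _ => (int_kc hU μ (int_pr fun i => mi i (u i))).const_mul _,
      integral_finsetSum _ fun u _ => ((Bm.prod _ fun i _ => bm i (u i)).int μ).const_mul _]
    refine sum_congr rfl fun u _ => ?_
    rw [integral_const_mul, integral_const_mul, prod_fd hU μ fun i => mi i (u i)]
  rw [e]
  refine int_PS S bm μ hl (fun i => (int_sq univ (bm i) μ hN (Y := y i ^ (2 * Fintype.card ι))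
    fun c _ => ?_).trans ?_) fun i => (h3 i).imp_left fun h3 => ?_
  · obtain ⟨c', hc⟩ : ∃ c', ∀ v, h i c v ≠ 0 → fl s v = c' := by
      by_cases e : ∃ v, h i c v ≠ 0
      · obtain ⟨v, hv⟩ := e
        exact ⟨_, fun w hw => cg_inj ((chi_ne (right_ne_zero_of_mul (hne i c w hw).2)).2.trans
          (chi_ne (right_ne_zero_of_mul (hne i c v hv).2)).2.symm)
          ((hne i c w hw).1.trans (hne i c v hv).1.symm)⟩
      · exact ⟨0, fun v hv => absurd ⟨v, hv⟩ e⟩
    have : pc s (h i c) c' = h i c := funext fun v => by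
      unfold pc
      split_ifs with e
      exacts [rfl, (by_contra fun e' => e (hc v e') : h i c v = 0).symm]
    exact this ▸ h1 i _ c' (t2 i c)
  · have k1 : ((univ : Finset I).card : ℝ) ≤ (2 * ⌈R / s⌉₊ + 1) ^ 2 := by
      rw [card_univ, Fintype.card_coe]
      exact_mod_cast card_image_le.trans_eq (card_bx _)
    refine (mul_le_mul_of_nonneg_right (pow_le_pow_left₀ (by positivity) k1 _)
      (pow_nonneg (hy i) _)).trans ?_
    rw [← pow_mul, ← mul_pow]
    exact pow_le_pow_left₀ (mul_nonneg (by positivity) (hy i)) (h2 i) _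
  · have : (fun v => ∑ c, h i c v) = f' i := funext fun v => by
      rw [hh, sum_coe_sort I fun c => if g v = c then f' i v else 0, sum_ite_eq]
      split_ifs with e
      exacts [rfl, (by_contra fun e' => e (mI i v e') : f' i v = 0).symm]
    simp only [← (hU i).sum univ fun c _ => mi i c, this]
    exact h3 _ (t1 i)

omit [DecidableEq ι] in
theorem int_w (hK : IsCompact K) (r : ι → Site) {u : (ι → Site) → ℝ} (hu : ∀ b, |u b| ≤ 1) :
    Measurable (fun z : ι → ℂ => (∏ i, chi K k s (r i) (z i)) * u fun i => fl s (z i)) ∧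
    Integrable (fun z : ι → ℂ => (∏ i, chi K k s (r i) (z i)) * u fun i => fl s (z i)) ∧
    ∀ z : ι → ℂ, |(∏ i, chi K k s (r i) (z i)) * u fun i => fl s (z i)| ≤ 1 := by
  have m := meas_chi (k := k) (s := s) hK.measurableSet
  have m' : Measurable fun z : ι → ℂ => u fun i => fl s (z i) := (measurable_of_countable u).comp
    (measurable_pi_lambda _ fun i => (meas_fl s).comp (measurable_pi_apply i))
  refine ⟨(Finset.measurable_prod _ fun i _ => (m _).comp (measurable_pi_apply i)).mul m',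
    (int_pr fun i => ⟨m _, ?_⟩).mul_bdd m'.aestronglyMeasurable
      (Eventually.of_forall fun z => hu _), fun z => ?_⟩
  · refine ((integrable_indicator_iff hK.measurableSet).2 (integrableOn_const (C := (1 : ℝ))
      hK.measure_lt_top.ne)).mono' (m _).aestronglyMeasurable (Eventually.of_forall fun v => ?_)
    by_cases hv : chi K k s (r i) v = 0
    · rw [hv, norm_zero]
      exact Set.indicator_nonneg (fun _ _ => zero_le_one) v
    · rw [Set.indicator_of_mem (chi_ne hv).1]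
      exact abs_chi _ _
  · rw [abs_mul, abs_prod]
    exact mul_le_one₀ (prod_le_one (fun _ _ => abs_nonneg _) fun _ _ => abs_chi _ _)
      (abs_nonneg _) (hu _)

theorem bad {μ : ℝ → Measure Config} [∀ a, IsProbabilityMeasure (μ a)] (hK : IsCompact K)
    (hk : 0 < k) {T : ι → ℝ → ℂ → Config → ℝ} {α : ι → ℝ} (h1 : ∀ i, α i ≤ 1) {b : ι → ℝ → ℝ}
    (hT : ∀ i, ∀ a > 0, Ker (T i a) (b i a)) (hM : ∀ i, MK μ (T i) (α i) K) {F : (ι → ℂ) → ℝ}
    (hF : ContDiff ℝ (⊤ : ℕ∞) F) (hc : HasCompactSupport F)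
    (h0 : ∀ p p', p ≠ p' → α p ≤ 1 / 2 ∨ α p' ≤ 1 / 2 ∨ ∀ z, z p = z p' → F z = 0) {θ : ℝ}
    (hθ : 0 < θ) {S : Finset (ι × ι)} {p p' : ι} (hp : p ≠ p') (hS : (p, p') ∈ S) (r : ι → Site)
    (j : Site) : Tendsto (fun a => ∫ z, F z * ((∏ i, chi K k (a ^ θ) (r i) (z i)) *
      eqI S (fun i => cg k j (fl (a ^ θ) (z i))) * kc (μ a) (fun i => T i a) z)) (𝓝[>] 0) (𝓝 0) := by
  set N := Fintype.card ι with hN
  have N0 : 0 < N := Fintype.card_pos_iff.2 ⟨p⟩
  have N1 : (0 : ℝ) < N := by exact_mod_cast N0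
  obtain ⟨R, R0, hR⟩ := hK.isBounded.exists_pos_norm_le
  obtain ⟨C, C0, hC⟩ := four_le hF hc
  choose B ρ B0 ρ0 hM using fun i => hM i N N0.ne' (θ / (4 * N)) (by positivity)
  set c : ι → ℝ := fun i => B i * (2 * R + 3 + (bx ⌈R / ρ i⌉₊).card * (ρ i ^ 2 / ρ i ^ α i)) with hc
  have c0 : ∀ i, 0 < c i := fun i => by
    have := B0 i
    have := ρ0 i
    positivity
  have t0 : ∀ {u : ℝ}, 0 < u → Tendsto (fun a : ℝ => a ^ u) (𝓝[>] 0) (𝓝 0) := fun hu => by
    have := (Real.continuous_rpow_const hu.le).tendsto 0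
    rw [Real.zero_rpow hu.ne'] at this
    exact this.mono_left nhdsWithin_le_nhds
  set X := C * (2 * k * ((1 + 2 * N) * ∏ i, c i)) with hX
  refine squeeze_zero_norm' ?_ (by simpa using (t0 (u := θ / 4) (by positivity)).const_mul X)
  filter_upwards [eventually_all.2 hM, Ioo_mem_nhdsGT one_pos,
    eventually_all.2 fun i => (t0 hθ).eventually (ge_mem_nhds (ρ0 i))] with a hM ha hs
  obtain ⟨ha, ha1⟩ := ha
  have s0 := Real.rpow_pos_of_pos ha θ
  have s1 := Real.rpow_le_one ha.le ha1.le hθ.le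
  have e1 : (a ^ (-(θ / (4 * N)))) ^ N * √(a ^ θ) = a ^ (θ / 4) := by
    rw [← Real.rpow_mul_natCast ha.le, Real.sqrt_eq_rpow, ← Real.rpow_mul ha.le,
      ← Real.rpow_add ha]
    congr 1
    field_simp
    ring
  generalize a ^ θ = s at s0 s1 hs e1 ⊢
  have w0 := Real.rpow_pos_of_pos ha (-(θ / (4 * N)))
  generalize a ^ (-(θ / (4 * N))) = w at w0 e1 hM
  have hU := fun i => hT i a ha
  have q0 := Real.sqrt_pos.2 s0
  have key : ∀ τ : ι → ℝ, (∀ i, τ i = 1 ∨ τ i = √s ∧ α i ≤ 1 / 2 ∧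
      ∃ j ≠ i, (i, j) ∈ S ∨ (j, i) ∈ S) → PN (fun z => (∏ i, chi K k s (r i) (z i)) *
        eqI S (fun i => cg k j (fl s (z i))) * kc (μ a) (fun i => T i a) z)
        ((1 + 2 * N) * ((∏ i, c i) * w ^ N * ∏ i, τ i)) := by
    intro τ hτ
    have τ0 : ∀ i, 0 < τ i := fun i => by
      rcases hτ i with e | ⟨e, -⟩ <;> rw [e]
      exacts [one_pos, q0]
    have := pn_le (k := k) hK.measurableSet hR s0 hU (μ a) N0.ne' S r j
      (l := fun i => c i * w * τ i) (fun i => by have := c0 i; have := τ0 i; positivity)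
      (fun i => by have := B0 i; positivity) (fun i => hM i s s0 (hs i)) (fun i => ?_) fun i => ?_
    · simpa only [prod_mul_distrib, prod_const, card_univ] using this
    · have k1 : (2 * ⌈R / s⌉₊ + 1 : ℝ) * s ≤ 2 * R + 3 := by
        have k5 := mul_le_mul_of_nonneg_right (Nat.ceil_lt_add_one (a := R / s)
          (by positivity)).le s0.le
        rw [add_mul, div_mul_cancel₀ _ s0.ne'] at k5
        linarith
      have k2 : s / s ^ α i ≤ τ i := by
        rw [show s / s ^ α i = s ^ (1 - α i) by rw [Real.rpow_sub s0, Real.rpow_one]]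
        rcases hτ i with e | ⟨e, e', -⟩ <;> rw [e]
        · exact Real.rpow_le_one s0.le s1 (by linarith [h1 i])
        · rw [Real.sqrt_eq_rpow]
          exact Real.rpow_le_rpow_of_exponent_ge s0 s1 (by linarith)
      have k3 : B i * (2 * R + 3) ≤ c i := mul_le_mul_of_nonneg_left
        (le_add_of_nonneg_right (by have := ρ0 i; positivity)) (B0 i).le
      have := B0 i
      calc _ = B i * ((2 * ⌈R / s⌉₊ + 1) * s) * w * (s / s ^ α i) := by ring
        _ ≤ B i * (2 * R + 3) * w * τ i := by gcongr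
        _ ≤ _ := by have := τ0 i; gcongr
    · refine (hτ i).imp (fun e f hf => ?_) fun h => h.2.2
      have cv : ∀ z, f z ≠ 0 → fl (ρ i) z ∈ bx ⌈R / ρ i⌉₊ :=
        fun z hz => mem_bx (ρ0 i) (hR z (hf.2.2 z hz)) (Nat.le_ceil _)
      simp only [(hU i).cells hf (ρ0 i) cv]
      refine (int_sum _ (fun c => (hU i).bm (hf.mi_pc (ρ0 i) c).1) _ N0.ne' fun c _ =>
        hM i _ (ρ0 i) le_rfl f c hf).trans ?_
      have := B0 i
      have := ρ0 i
      rw [← mul_pow, e, mul_one]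
      refine pow_le_pow_left₀ (by positivity) ?_ _
      have : 0 ≤ B i * (2 * R + 3) * w := by positivity
      simp only [hc]
      linarith
  have iW := int_kc hU (μ a) (int_w (k := k) (s := s) hK r
    (u := fun b => eqI S fun i => cg k j (b i)) fun _ => abs_eqI _ _).2.1
  have k1 : (1 : ℝ) ≤ k := by exact_mod_cast hk
  have P0 : 0 ≤ (1 + 2 * N) * ((∏ i, c i) * w ^ N * √s) := by
    have := prod_pos (s := univ) fun i _ => c0 i
    positivity
  have fin : C * (2 * k * ((1 + 2 * N) * ((∏ i, c i) * w ^ N * √s))) = X * a ^ (θ / 4) := by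
    rw [hX, ← e1]
    ring
  have sp : ∀ i, α i ≤ 1 / 2 → (∃ j ≠ i, (i, j) ∈ S ∨ (j, i) ∈ S) → |∫ z, F z *
      ((∏ i, chi K k s (r i) (z i)) * eqI S (fun i => cg k j (fl s (z i))) *
        kc (μ a) (fun i => T i a) z)| ≤ X * a ^ (θ / 4) := fun i i1 i2 => by
    refine (hC _ _ iW (key (fun i' => if i' = i then √s else 1) fun i' => ?_)).1.trans ?_
    · split_ifs with e
      exacts [Or.inr ⟨rfl, e ▸ i1, e ▸ i2⟩, Or.inl rfl]
    · rw [prod_ite_eq', if_pos (mem_univ _), ← fin]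
      exact mul_le_mul_of_nonneg_left (by nlinarith) C0
  rcases h0 p p' hp with h | h | h
  · exact sp p h ⟨p', hp.symm, Or.inl hS⟩
  · exact sp p' h ⟨p, hp, Or.inr hS⟩
  set g : ℂ → Site := fun v => cg k j (fl s v) with hg
  refine ((hC _ _ iW (key 1 fun _ => Or.inl rfl)).2 p p' hp h (2 * k * s) (by positivity)
    (fun v => Function.invFun g (g v)) ((measurable_of_countable
      fun u => Function.invFun g (cg k j u)).comp (meas_fl s))
    (fun v => cg_near hk s0 (Function.invFun_eq (f := g) ⟨v, rfl⟩).symm) fun z hz => congrArg _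
      (eqI_ne (right_ne_zero_of_mul (left_ne_zero_of_mul hz)) _ hS)).trans ?_
  rw [← fin]
  refine mul_le_mul_of_nonneg_left ?_ C0
  have k2 : s ≤ √s := Real.le_sqrt_of_sq_le (by nlinarith)
  have := prod_pos (s := univ) fun i _ => c0 i
  simp only [Pi.one_apply, prod_const_one]
  calc _ = 2 * k * ((1 + 2 * N) * ((∏ i, c i) * w ^ N * s)) := by ring
    _ ≤ _ := by gcongr

end Vale.Agent.P144DD
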