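import Vale.Agent.P144F.Defs
import Mathlib.Analysis.Calculus.ContDiff.Defs

/-!
The mixed correlations as distributions.
-/

namespace Vale.Agent.P144DD

open Filter Topology MeasureTheory Vale.Agent.P144

/-- The positions of `n` spins and `m` energies. -/
abbrev Pos (n m : ℕ) : Type := (Fin n → ℂ) × (Fin m → ℂ)

/-- The points of a mixed correlation with the positions `z` and the directions `j`. -/
def pts {n m : ℕ} (j : Fin m → Fin 2) (z : Pos n m) : Pts := ⟨n, m, z.1, z.2, j⟩

/-- Test functions: smooth, with compact support in `D ^ (n + m)`, zero where two energies meet.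
There is no condition where two spins meet or where a spin and an energy meet. -/
def TestM (D : Set ℂ) {n m : ℕ} (F : Pos n m → ℝ) : Prop :=
  ContDiff ℝ (⊤ : ℕ∞) F ∧ HasCompactSupport F ∧
    tsupport F ⊆ {z | (∀ i, z.1 i ∈ D) ∧ ∀ k, z.2 k ∈ D} ∧
    ∀ z k l, k ≠ l → z.2 k = z.2 l → F z = 0

/-- The difference of the smeared mixed correlations tends to zero. -/
def DistDiff (D : Set ℂ) (E₀ E : Fam) (Zσ Zε : ℝ) : Prop :=
  ∀ (n m : ℕ) (j : Fin m → Fin 2) (F : Pos n m → ℝ), TestM D F →
    Tendsto (fun a => (∫ z, F z * corr a (E a) (pts j z)) -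
      Zσ ^ n * Zε ^ m * ∫ z, F z * corr a (E₀ a) (pts j z)) (𝓝[>] 0) (𝓝 0)

/-- The smeared mixed correlations converge to those of `C`, up to the two constants. -/
def DistLim (D : Set ℂ) (E : Fam) (Zσ Zε : ℝ) (C : Pts → ℝ) : Prop :=
  ∀ (n m : ℕ) (j : Fin m → Fin 2) (F : Pos n m → ℝ), TestM D F →
    Integrable (fun z => F z * C (pts j z)) ∧
      Tendsto (fun a => ∫ z, F z * corr a (E a) (pts j z)) (𝓝[>] 0)
        (𝓝 (Zσ ^ n * Zε ^ m * ∫ z, F z * C (pts j z)))

end Vale.Agent.P144DD
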