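import Vale.Agent.P144DD.Bad
import Vale.Agent.P144DD.Top

/-!
From the pointwise bounds to the distributions.
-/

namespace Vale.Agent.P144DD

open Filter Topology MeasureTheory Vale.Agent.P144 Vale.Agent.P144F Finset

theorem gen_diff {ι : Type*} [Fintype ι] [DecidableEq ι] {K : Set ℂ} {μ μ₀ : ℝ → Measure Config}
    [∀ a, IsProbabilityMeasure (μ a)] [∀ a, IsProbabilityMeasure (μ₀ a)] (hK : IsCompact K)
    {T T₀ : ι → ℝ → ℂ → Config → ℝ} {α : ι → ℝ} (h1 : ∀ i, α i ≤ 1) {b : ι → ℝ → ℝ}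
    (hT : ∀ i, ∀ a > 0, Ker (T i a) (b i a)) (hT₀ : ∀ i, ∀ a > 0, Ker (T₀ i a) (b i a))
    (hM : ∀ i, MK μ (T i) (α i) K) (hM₀ : ∀ i, MK μ₀ (T₀ i) (α i) K) {F : (ι → ℂ) → ℝ}
    (hF : ContDiff ℝ (⊤ : ℕ∞) F) (hc : HasCompactSupport F) (hs : ∀ z, F z ≠ 0 → ∀ i, z i ∈ K)
    (h0 : ∀ p p', p ≠ p' → α p ≤ 1 / 2 ∨ α p' ≤ 1 / 2 ∨ ∀ z, z p = z p' → F z = 0) {θ Z : ℝ}
    (hθ : 0 < θ) (hD : ∀ ε > 0, ∀ᶠ a in 𝓝[>] (0 : ℝ), ∀ z : ι → ℂ, (∀ i, z i ∈ K) →
      (∀ i i', i ≠ i' → a ^ θ ≤ ‖z i - z i'‖) →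
        |kc (μ a) (fun i => T i a) z - Z * kc (μ₀ a) (fun i => T₀ i a) z| ≤ ε) :
    Tendsto (fun a => (∫ z, F z * kc (μ a) (fun i => T i a) z) -
      Z * ∫ z, F z * kc (μ₀ a) (fun i => T₀ i a) z) (𝓝[>] 0) (𝓝 0) := by
  set k := Fintype.card ι + 1 with hk
  choose j j1 j2 using fun r : ι → Site => exists_free r
  have iF : Integrable F := hF.continuous.integrable_of_hasCompactSupport hc
  set P := (univ : Finset ι).offDiag.powerset.erase ∅ with hP
  set C := Fintype.piFinset fun _ : ι => Ico (0 : ℤ) k ×ˢ Ico (0 : ℤ) k with hC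
  set w : ℝ → (ι → Site) → ((ι → Site) → ℝ) → (ι → ℂ) → ℝ := fun s r u z =>
    (∏ i, chi K k s (r i) (z i)) * u fun i => cg k (j r) (fl s (z i)) with hw
  have key : ∀ s z, F z =
      ∑ r ∈ C, (F z * w s r gI z - ∑ S ∈ P, (-1) ^ S.card * (F z * w s r (eqI S) z)) := by
    intro s z
    have e : ∀ r, F z * w s r gI z - ∑ S ∈ P, (-1) ^ S.card * (F z * w s r (eqI S) z) =
        F z * ∏ i, chi K k s (r i) (z i) := fun r => by
      refine Eq.trans ?_ ((congrArg _ (gI_add fun i => cg k (j r) (fl s (z i)))).trans (mul_one _))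
      rw [mul_sub, mul_sum]
      exact congrArg₂ _ (mul_assoc _ _ _).symm (sum_congr rfl fun S _ => by rw [hw]; ring)
    simp only [e, ← mul_sum]
    by_cases hz : F z = 0
    · simp [hz]
    rw [hC, ← prod_univ_sum _ fun i c => chi K k s c (z i), prod_eq_one, mul_one]
    intro i _
    have k0 : (0 : ℤ) < k := by omega
    simp only [chi, hs z hz i, true_and]
    rw [sum_eq_single_of_mem (col k (fl s (z i))) (mem_product.2 ⟨mem_Ico.2 ⟨Int.emod_nonneg _ k0.ne',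
      Int.emod_lt_of_pos _ k0⟩, mem_Ico.2 ⟨Int.emod_nonneg _ k0.ne', Int.emod_lt_of_pos _ k0⟩⟩)
      fun c _ hc => if_neg hc.symm, if_pos rfl]
  have iw : ∀ s r u, (∀ c, |u c| ≤ 1) → Integrable fun z => F z * w s r u z := fun s r u hu => by
    have := int_w (k := k) (s := s) hK r (u := fun c => u fun i => cg k (j r) (c i)) fun _ => hu _
    exact iF.mul_bdd this.1.aestronglyMeasurable (Eventually.of_forall this.2.2)
  have dec : ∀ {U : ι → ℂ → Config → ℝ} {c : ι → ℝ}, (∀ i, Ker (U i) (c i)) →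
      ∀ (ν : Measure Config) [IsProbabilityMeasure ν] (s : ℝ), ∫ z, F z * kc ν U z =
        ∑ r ∈ C, ((∫ z, F z * w s r gI z * kc ν U z) -
          ∑ S ∈ P, (-1) ^ S.card * ∫ z, F z * (w s r (eqI S) z * kc ν U z)) := by
    intro U c hU ν _ s
    have i1 := fun r => int_kc hU ν (iw s r gI abs_gI)
    have i2 := fun r (S : Finset (ι × ι)) =>
      (int_kc hU ν (iw s r (eqI S) (abs_eqI S))).const_mul ((-1) ^ S.card)
    have i3 := fun r => integrable_finsetSum P fun S _ => i2 r S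
    simp only [← mul_assoc (F _), ← integral_const_mul, ← integral_finsetSum P fun S _ => i2 _ S,
      ← integral_sub (i1 _) (i3 _)]
    refine Eq.trans (integral_congr_ae (Eventually.of_forall fun z => ?_))
      (integral_finsetSum C fun r _ => (i1 r).sub (i3 r))
    conv_lhs => beta_reduce; rw [key s z]
    simp only [sum_mul, sub_mul, mul_assoc]
  have good : ∀ r, Tendsto (fun a => (∫ z, F z * w (a ^ θ) r gI z * kc (μ a) (fun i => T i a) z) -
      Z * ∫ z, F z * w (a ^ θ) r gI z * kc (μ₀ a) (fun i => T₀ i a) z) (𝓝[>] 0) (𝓝 0) := by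
    intro r
    rw [Metric.tendsto_nhds]
    intro ε hε
    have I0 : 0 ≤ ∫ z, |F z| := integral_nonneg fun _ => abs_nonneg _
    filter_upwards [hD (ε / (1 + ∫ z, |F z|)) (by positivity), self_mem_nhdsWithin] with a h ha
    have s0 := Real.rpow_pos_of_pos ha θ
    rw [dist_zero_right, ← integral_const_mul, ← integral_sub
      (int_kc (fun i => hT i a ha) _ (iw _ r gI abs_gI))
      ((int_kc (fun i => hT₀ i a ha) _ (iw _ r gI abs_gI)).const_mul _)]
    refine (norm_integral_le_of_norm_le (iF.abs.const_mul (ε / (1 + ∫ z, |F z|)))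
      (Eventually.of_forall fun z => ?_)).trans_lt ?_
    · rw [mul_left_comm Z, ← mul_sub, Real.norm_eq_abs, abs_mul, mul_comm]
      by_cases hz : w (a ^ θ) r gI z = 0
      · rw [hz, mul_zero, abs_zero, mul_zero]
        positivity
      have c1 := fun i => chi_ne (prod_ne_zero_iff.1 (left_ne_zero_of_mul hz) i (mem_univ i))
      refine mul_le_mul (h z (fun i => (c1 i).1) fun i i' hi => cg_far (j1 r) s0
        (gI_ne (right_ne_zero_of_mul hz) hi) ((c1 i).2 ▸ j2 r i) ((c1 i').2 ▸ j2 r i')) ?_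
        (abs_nonneg _) (by positivity)
      rw [abs_mul]
      exact mul_le_of_le_one_right (abs_nonneg _) ((int_w (k := k) (s := a ^ θ) hK r
        (u := fun c => gI fun i => cg k (j r) (c i)) fun _ => abs_gI _).2.2 z)
    · rw [integral_const_mul, div_mul_eq_mul_div, div_lt_iff₀ (by positivity)]
      nlinarith
  have small : ∀ r, ∀ S ∈ P, Tendsto (fun a => (-1) ^ S.card *
      (∫ z, F z * (w (a ^ θ) r (eqI S) z * kc (μ a) (fun i => T i a) z)) - Z * ((-1) ^ S.card *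
        ∫ z, F z * (w (a ^ θ) r (eqI S) z * kc (μ₀ a) (fun i => T₀ i a) z))) (𝓝[>] 0) (𝓝 0) := by
    intro r S hS
    obtain ⟨⟨p, p'⟩, e⟩ := nonempty_iff_ne_empty.2 (mem_erase.1 hS).1
    have hp : p ≠ p' := (mem_offDiag.1 (mem_powerset.1 (mem_erase.1 hS).2 e)).2.2
    simpa using ((bad hK (Nat.succ_pos _) h1 hT hM hF hc h0 hθ hp e r (j r)).const_mul
      ((-1) ^ S.card)).sub (((bad hK (Nat.succ_pos _) h1 hT₀ hM₀ hF hc h0 hθ hp e r
        (j r)).const_mul ((-1) ^ S.card)).const_mul Z)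
  have := tendsto_finsetSum C fun r _ => (good r).sub (tendsto_finsetSum P (small r))
  simp only [sum_const_zero, sub_zero] at this
  refine this.congr' (eventually_mem_nhdsWithin.mono fun a ha => ?_)
  dsimp only
  rw [dec (fun i => hT i a ha) _ (a ^ θ), dec (fun i => hT₀ i a ha) _ (a ^ θ), mul_sum,
    ← sum_sub_distrib]
  refine sum_congr rfl fun r _ => ?_
  rw [sum_sub_distrib, ← mul_sum]
  ring

/-- The rescaled centred energy at a point. -/
noncomputable def En (μ : Measure Config) (d : Fin 2) (a : ℝ) (v : ℂ) (σ : Config) : ℝ :=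
  a⁻¹ * (sp (σ (fl a v)) * sp (σ (fl a v + dir d)) -
    ∫ τ, sp (τ (fl a v)) * sp (τ (fl a v + dir d)) ∂μ)

/-- The kernels of a mixed correlation. -/
noncomputable def kern (μ : Measure Config) {n m : ℕ} (j : Fin m → Fin 2) (a : ℝ) :
    Fin n ⊕ Fin m → ℂ → Config → ℝ := Sum.elim (fun _ => S a) fun k => En μ (j k) a

theorem corr_kc {E : (Config → ℝ) → ℝ} {μ : Measure Config} (h : ∀ F, E F = ∫ σ, F σ ∂μ) (a : ℝ)
    (p : Pts) : corr a E p = kc μ (kern μ p.j a) (Sum.elim p.x p.y) := by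
  simp only [corr, h, kc, Fintype.prod_sum_type, kern, Sum.elim_inl, Sum.elim_inr, S, En]

theorem ker_S {a : ℝ} (ha : 0 < a) : Ker (S a) (2 / a ^ (1 / 8 : ℝ)) :=
  ⟨meas_S a, fun z σ => by
    rw [abs_S ha, Real.rpow_neg ha.le, inv_eq_one_div]
    exact div_le_div_of_nonneg_right one_le_two (Real.rpow_nonneg ha.le _)⟩

theorem ker_En (μ : Measure Config) [IsProbabilityMeasure μ] (d : Fin 2) {a : ℝ} (ha : 0 < a) :
    Ker (En μ d a) (2 / a ^ (1 : ℝ)) := by
  have h : Measurable fun p : Config × Site => a⁻¹ * (sp (p.1 p.2) * sp (p.1 (p.2 + dir d)) -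
      ∫ τ, sp (τ p.2) * sp (τ (p.2 + dir d)) ∂μ) :=
    measurable_from_prod_countable_left fun y => measurable_const.mul
      ((((measurable_of_countable sp).comp (measurable_pi_apply y)).mul
        ((measurable_of_countable sp).comp (measurable_pi_apply (y + dir d)))).sub
          (measurable_const (a := ∫ τ, sp (τ y) * sp (τ (y + dir d)) ∂μ)))
  refine ⟨h.comp (measurable_fst.prodMk ((meas_fl a).comp measurable_snd)), fun z σ => ?_⟩
  have e : ∀ τ : Config, ‖sp (τ (fl a z)) * sp (τ (fl a z + dir d))‖ ≤ 1 := fun τ => by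
    rw [Real.norm_eq_abs, abs_mul, P144F.abs_sp, P144F.abs_sp, mul_one]
  have := norm_integral_le_of_norm_le_const (μ := μ) (Eventually.of_forall e)
  rw [probReal_univ, mul_one] at this
  rw [En, abs_mul, abs_of_pos (inv_pos.2 ha), Real.rpow_one, div_eq_inv_mul]
  exact mul_le_mul_of_nonneg_left ((abs_sub _ _).trans ((add_le_add (e σ) this).trans_eq
    one_add_one_eq_two)) (inv_pos.2 ha).le

/-- The dimensions. -/
noncomputable def dm (n m : ℕ) : Fin n ⊕ Fin m → ℝ := Sum.elim (fun _ => 1 / 8) fun _ => 1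

theorem ker_kern (μ : Measure Config) [IsProbabilityMeasure μ] {n m : ℕ} (j : Fin m → Fin 2)
    {a : ℝ} (ha : 0 < a) (i : Fin n ⊕ Fin m) : Ker (kern μ j a i) (2 / a ^ dm n m i) := by
  cases i
  exacts [ker_S ha, ker_En μ _ ha]

theorem exists_ins {D K : Set ℂ} (ho : IsOpen D) (hK : K ⊆ D) (hc : IsCompact K) :
    ∃ s > (0 : ℝ), ∀ p : Pts, (∀ i, Sum.elim p.x p.y i ∈ K) → Ins D s p := by
  obtain ⟨r, hr, hs⟩ := hc.exists_thickening_subset_open ho hK
  obtain ⟨R, R0, hR⟩ := hc.isBounded.exists_pos_norm_le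
  refine ⟨min r R⁻¹, by positivity, fun p hp i => ⟨(hR _ (hp i)).trans
    (le_inv_of_le_inv₀ (by positivity) (min_le_right _ _)), fun w hw => hs ?_⟩⟩
  exact Metric.mem_thickening_iff.2 ⟨_, hp i, lt_of_lt_of_le hw (min_le_left _ _)⟩

theorem Maj.zbm {D : Set ℂ} {E : Fam} (h : Maj D E) : ZBM D E := by
  intro n m k _ _ hk s₀ hs₀
  obtain ⟨C, h⟩ := h n m s₀ hs₀
  have hk' : (2 : ℝ) ≤ k := by exact_mod_cast hk
  refine ⟨C * ((k : ℝ) ^ (1 / 8 : ℝ)) ^ n * k ^ m, 1, 1, one_pos, ?_⟩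
  filter_upwards [h, self_mem_nhdsWithin] with a h ha s s1 s2 p p1 p2 p3 _ p5
  have hs : 0 < s := lt_of_lt_of_le (by simpa using ha) s1
  have k0 : (0 : ℝ) < k := by linarith
  have := h p p1 p2 p3 (fun _ => s / k) (fun _ => ⟨by positivity,
    (div_le_self hs.le (by linarith)).trans s2⟩) p5
  subst p1 p2
  simp only [prod_const, card_univ, Fintype.card_fin, Real.div_rpow hs.le k0.le, div_pow] at this
  rwa [← mul_div_assoc, ← mul_div_assoc, div_le_iff₀ (by positivity), div_mul_eq_mul_div,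
    div_le_iff₀ (by positivity), mul_right_comm C] at this

theorem ZBM.mk {D K : Set ℂ} {E : Fam} (h : ZBM D E) {μ : ℝ → Measure Config}
    [∀ a, IsProbabilityMeasure (μ a)] (hE : Rep E μ) (ho : IsOpen D) (hK : K ⊆ D)
    (hc : IsCompact K) {n m : ℕ} (j : Fin m → Fin 2) (i : Fin n ⊕ Fin m) :
    MK μ (fun a => kern (μ a) j a i) (dm n m i) K := by
  obtain ⟨s₀, s0, hs⟩ := exists_ins ho hK hc
  refine ZK.mk (fun q k _ hk => ?_) (by cases i <;> simp [dm])
    (by cases i <;> norm_num [dm]) fun a ha => ker_kern _ j ha i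
  rcases i with i | i
  · obtain ⟨A, L₀, r, hr, h⟩ := h (2 * q) 0 k (Or.inr rfl) (even_two_mul q) hk s₀ s0
    refine ⟨A, L₀, r, hr, ?_⟩
    filter_upwards [h, self_mem_nhdsWithin] with a h ha s s1 s2 x x1 x2 x3
    have := h s s1 s2 (spins x) rfl rfl (hs _ (by rintro (i | i); exacts [x1 i, i.elim0]))
      (by rintro (i | i) (j | j); exacts [x2 i j, j.elim0, i.elim0, i.elim0])
      (by rintro (i | i) (j | j) e; exacts [x3 i j fun e' => e (congrArg _ e'), j.elim0, i.elim0,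
        i.elim0])
    rwa [corr_eq (hE a ha), pow_zero, mul_one] at this
  · obtain ⟨A, L₀, r, hr, h⟩ := h 0 (2 * q) k (Or.inl rfl) Even.zero hk s₀ s0
    refine ⟨A, L₀, r, hr, ?_⟩
    filter_upwards [h, self_mem_nhdsWithin] with a h ha s s1 s2 x x1 x2 x3
    have := h s s1 s2 ⟨0, 2 * q, ![], x, fun _ => j i⟩ rfl rfl
      (hs _ (by rintro (i | i); exacts [i.elim0, x1 i]))
      (by rintro (i | i) (j | j); exacts [i.elim0, i.elim0, j.elim0, x2 i j])
      (by rintro (i | i) (j | j) e; exacts [i.elim0, i.elim0, j.elim0,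
        x3 i j fun e' => e (congrArg _ e')])
    simpa [corr_kc (hE a ha), kc, kern, dm] using this

/-- The positions as a pair. -/
noncomputable abbrev sP (n m : ℕ) : (Fin n ⊕ Fin m → ℂ) ≃L[ℝ] Pos n m :=
  ContinuousLinearEquiv.sumPiEquivProdPi ℝ (Fin n) (Fin m) fun _ => ℂ

theorem int_sP {n m : ℕ} (G : Pos n m → ℝ) : ∫ z, G z = ∫ w, G (sP n m w) :=
  ((volume_measurePreserving_sumPiEquivProdPi fun _ : Fin n ⊕ Fin m => ℂ).integral_comp' G).symm

theorem elim_sP {n m : ℕ} (j : Fin m → Fin 2) (w : Fin n ⊕ Fin m → ℂ) :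
    Sum.elim (pts j (sP n m w)).x (pts j (sP n m w)).y = w := Sum.elim_comp_inl_inr w

theorem TestM.cpt {D : Set ℂ} {n m : ℕ} {F : Pos n m → ℝ} (h : TestM D F) :
    ∃ K ⊆ D, IsCompact K ∧ ∀ w, F (sP n m w) ≠ 0 → ∀ i, w i ∈ K := by
  refine ⟨⋃ i, (fun z => (sP n m).symm z i) '' tsupport F, Set.iUnion_subset fun i => ?_,
    isCompact_iUnion fun i => IsCompact.image h.2.1 (by fun_prop), fun w hw i =>
      Set.mem_iUnion.2 ⟨i, _, subset_tsupport _ hw, by simp⟩⟩
  rintro _ ⟨z, hz, rfl⟩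
  cases i
  exacts [(h.2.2.1 hz).1 _, (h.2.2.1 hz).2 _]

theorem blkH : BlkH := by
  rintro D E₀ E Zσ Zε ho ⟨μ₀, _, r0⟩ ⟨μ, _, r1⟩ hU hZ hM n m j F hF
  obtain ⟨K, hK, hc, hs⟩ := hF.cpt
  obtain ⟨s₀, s0, hI⟩ := exists_ins ho hK hc
  obtain ⟨θ, hθ, hU⟩ := hU n m s₀ s0
  refine (gen_diff (μ := μ) (μ₀ := μ₀) (F := fun w => F (sP n m w)) hc (α := dm n m)
    (fun i => by cases i <;> norm_num [dm]) (fun i a ha => ker_kern (μ a) j ha i)
    (fun i a ha => ker_kern (μ₀ a) j ha i) (hZ.mk r1 ho hK hc j) (hM.zbm.mk r0 ho hK hc j)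
    (hF.1.comp (sP n m).contDiff) (hF.2.1.comp_homeomorph (sP n m).toHomeomorph) hs ?_
    (Z := Zσ ^ n * Zε ^ m) hθ fun ε hε => ?_).congr'
    (eventually_mem_nhdsWithin.mono fun a ha => ?_)
  · rintro (p | p) (p' | p') h
    exacts [Or.inl (by norm_num [dm]), Or.inl (by norm_num [dm]),
      Or.inr (Or.inl (by norm_num [dm])),
      Or.inr (Or.inr fun z hz => hF.2.2.2 _ p p' (fun e => h (congrArg _ e)) hz)]
  · filter_upwards [hU ε hε, self_mem_nhdsWithin] with a h ha z z1 z2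
    have := h (pts j (sP n m z)) rfl rfl (hI _ (by rwa [elim_sP])) (by rwa [Sep, elim_sP])
    rwa [corr_kc (r0 a ha), corr_kc (r1 a ha), elim_sP] at this
  · simp only [int_sP, corr_kc (r0 a ha), corr_kc (r1 a ha), elim_sP]
    rfl

end Vale.Agent.P144DD
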