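import Vale.Agent.P144F.Diff

/-!
General bounded kernels, their smeared fields and the moments in a cell.
-/

namespace Vale.Agent.P144DD

open Filter Topology MeasureTheory Vale.Agent.P144 Vale.Agent.P144F Finset

/-- A bounded measurable observable for every point. -/
def Ker (T : ℂ → Config → ℝ) (b : ℝ) : Prop :=
  Measurable (fun p : Config × ℂ => T p.2 p.1) ∧ ∀ z σ, |T z σ| ≤ b

/-- The smeared field. -/
noncomputable def fd (T : ℂ → Config → ℝ) (f : ℂ → ℝ) (σ : Config) : ℝ := ∫ z, f z * T z σ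

/-- The correlation of the kernels. -/
noncomputable def kc {ι : Type*} [Fintype ι] (μ : Measure Config) (T : ι → ℂ → Config → ℝ)
    (x : ι → ℂ) : ℝ := ∫ σ, ∏ i, T i (x i) σ ∂μ

variable {T : ℂ → Config → ℝ} {b : ℝ} {f : ℂ → ℝ}

theorem Ker.int (hT : Ker T b) (h : Mi f) (σ : Config) : Integrable fun z => f z * T z σ :=
  h.2.mul_bdd (c := b) (hT.1.comp (measurable_const.prodMk measurable_id)).aestronglyMeasurable
    (Eventually.of_forall fun z => hT.2 z σ)

theorem Ker.abs (hT : Ker T b) (h : Mi f) (σ : Config) : |fd T f σ| ≤ b * ∫ z, |f z| := by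
  rw [fd, ← integral_const_mul]
  refine abs_integral_le_integral_abs.trans (integral_mono (hT.int h σ).abs (h.2.abs.const_mul b)
    fun z => ?_)
  dsimp only
  rw [abs_mul, mul_comm]
  exact mul_le_mul_of_nonneg_right (hT.2 z σ) (abs_nonneg _)

theorem Ker.bm (hT : Ker T b) (h : Mi f) : Bm (fd T f) :=
  ⟨(StronglyMeasurable.integral_prod_right (f := fun σ z => f z * T z σ)
    ((h.1.comp measurable_snd).mul hT.1).stronglyMeasurable).measurable, _, hT.abs h⟩

theorem Ker.sum (hT : Ker T b) {κ : Type*} (s : Finset κ) {f : κ → ℂ → ℝ} (h : ∀ i ∈ s, Mi (f i))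
    (σ : Config) : fd T (fun z => ∑ i ∈ s, f i z) σ = ∑ i ∈ s, fd T (f i) σ := by
  simp only [fd, sum_mul]
  exact integral_finsetSum _ fun i hi => hT.int (h i hi) σ

section

variable {ι : Type*} [Fintype ι] {U : ι → ℂ → Config → ℝ} {c : ι → ℝ} {g : ι → ℂ → ℝ}

theorem meas_KK (hU : ∀ i, Ker (U i) (c i)) :
    Measurable fun p : Config × (ι → ℂ) => ∏ i, U i (p.2 i) p.1 :=
  Finset.measurable_prod _ fun i _ => (hU i).1.comp
    (measurable_fst.prodMk ((measurable_pi_apply i).comp measurable_snd))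

theorem abs_KK (hU : ∀ i, Ker (U i) (c i)) (x : ι → ℂ) (σ : Config) :
    ‖∏ i, U i (x i) σ‖ ≤ ∏ i, c i := by
  rw [Real.norm_eq_abs, abs_prod]
  exact prod_le_prod (fun _ _ => abs_nonneg _) fun i _ => (hU i).2 _ _

theorem meas_kc (hU : ∀ i, Ker (U i) (c i)) (μ : Measure Config) [SFinite μ] :
    Measurable (kc μ U) :=
  (StronglyMeasurable.integral_prod_left (f := fun σ (x : ι → ℂ) => ∏ i, U i (x i) σ)
    (meas_KK hU).stronglyMeasurable).measurable

theorem abs_kc (hU : ∀ i, Ker (U i) (c i)) (μ : Measure Config) [IsProbabilityMeasure μ]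
    (x : ι → ℂ) : ‖kc μ U x‖ ≤ ∏ i, c i := by
  simpa [kc] using norm_integral_le_of_norm_le_const (μ := μ) (Eventually.of_forall (abs_KK hU x))

theorem int_kc (hU : ∀ i, Ker (U i) (c i)) (μ : Measure Config) [IsProbabilityMeasure μ]
    {F : (ι → ℂ) → ℝ} (hF : Integrable F) : Integrable fun x => F x * kc μ U x :=
  hF.mul_bdd (meas_kc hU μ).aestronglyMeasurable (Eventually.of_forall (abs_kc hU μ))

theorem int_pr (h : ∀ i, Mi (g i)) : Integrable fun x : ι → ℂ => ∏ i, g i (x i) :=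
  Integrable.fintype_prod fun i => (h i).2

theorem prod_fd (hU : ∀ i, Ker (U i) (c i)) (μ : Measure Config) [IsProbabilityMeasure μ]
    (h : ∀ i, Mi (g i)) :
    ∫ σ, ∏ i, fd (U i) (g i) σ ∂μ = ∫ x : ι → ℂ, (∏ i, g i (x i)) * kc μ U x := by
  have e : ∀ σ, ∏ i, fd (U i) (g i) σ =
      ∫ x : ι → ℂ, (∏ i, g i (x i)) * ∏ i, U i (x i) σ := fun σ => by
    simp only [fd, ← prod_mul_distrib]
    exact (integral_fintype_prod_volume_eq_prod fun i z => g i z * U i z σ).symm
  simp only [e, kc, ← integral_const_mul]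
  exact integral_integral_swap (((int_pr h).comp_snd μ).mul_bdd
    (meas_KK hU).aestronglyMeasurable (Eventually.of_forall fun p => abs_KK hU _ _))

end

theorem Ker.cells (hT : Ker T b) {K : Set ℂ} (h : Tb K f) {s : ℝ} (hs : 0 < s) {I : Finset Site}
    (hI : ∀ z, f z ≠ 0 → fl s z ∈ I) (σ : Config) : fd T f σ = ∑ c ∈ I, fd T (pc s f c) σ := by
  rw [← hT.sum I fun c _ => (h.mi_pc hs c).1, ← sum_pc hI]

theorem Ker.step (hT : Ker T b) {μ : Measure Config} [IsProbabilityMeasure μ] {K : Set ℂ} {q k : ℕ}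
    (hq : q ≠ 0) (hk : 0 < k) {s A Y : ℝ} (hs : 0 < s) (hA : 0 ≤ A) (hY : 0 ≤ Y)
    (h1 : ∀ x : Fin (2 * q) → ℂ, (∀ i, x i ∈ K) → (∀ i j, ‖x i - x j‖ ≤ 2 * s) →
      (∀ i j, i ≠ j → s / k ≤ ‖x i - x j‖) → |kc μ (fun _ => T) x| ≤ A)
    (h2 : ∀ f c, Tb K f → ∫ σ, fd T (pc (s / k) f c) σ ^ (2 * q) ∂μ ≤ Y)
    (hf : Tb K f) (c : Site) : ∫ σ, fd T (pc s f c) σ ^ (2 * q) ∂μ ≤ 4 ^ (2 * q) *
      (2 * (A * (s ^ 2) ^ (2 * q)) + (2 * (2 * q).factorial) ^ (2 * q) * (k ^ (2 * q) * Y)) := by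
  have hk' : (0 : ℝ) < k := by exact_mod_cast hk
  have hs' : 0 < s / k := by positivity
  set g := pc s f c with hg
  have tg : Tb K g := hf.pc s c
  set I : Finset Site := Ico (k * c.1) (k * c.1 + k) ×ˢ Ico (k * c.2) (k * c.2 + k) with hI
  have cI : I.card = k ^ 2 := by simp [hI, sq]
  have mI : ∀ z, g z ≠ 0 → fl (s / k) z ∈ I := fun z hz => by
    rw [hI, ← (pc_ne hz).1]
    exact mem_product.2 ⟨floor_sub _ _ hk, floor_sub _ _ hk⟩
  set P : Finset Site := range 2 ×ˢ range 2 |>.image fun p : ℕ × ℕ => ((p.1 : ℤ), (p.2 : ℤ)) with hP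
  have cP : P.card = 4 := by decide
  have bm : ∀ c, Bm (fd T (pc (s / k) g c)) := fun c => hT.bm (tg.mi_pc hs' c).1
  have e : ∀ σ, fd T g σ = ∑ t ∈ P, ∑ c ∈ I with (c.1 % 2, c.2 % 2) = t,
      fd T (pc (s / k) g c) σ := fun σ => by
    rw [hT.cells tg hs' mI, sum_fiberwise_of_maps_to]
    intro c _
    refine mem_image.2 ⟨((c.1 % 2).toNat, (c.2 % 2).toNat), ?_, ?_⟩
    · simp only [mem_product, mem_range]
      omega
    · simp only [Prod.mk.injEq]
      omega
  simp only [e]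
  rw [show (4 : ℝ) = P.card by rw [cP]; norm_num]
  refine int_sum P (fun t => Bm.sum _ fun c _ => bm c) μ hq fun t _ => ?_
  set I' := I.filter fun c => (c.1 % 2, c.2 % 2) = t with hI'
  have cI' : (I'.card : ℝ) ≤ k ^ 2 := by exact_mod_cast (card_filter_le _ _).trans_eq cI
  refine (one_colour I' bm μ hq (X := A * ((s / k) ^ 2) ^ (2 * q)) (by positivity)
    (fun u hu => ?_) fun c _ => h2 g c tg).trans ?_
  · rw [prod_fd (fun _ => hT) μ fun i => (tg.mi_pc hs' (u i)).1]
    refine (abs_int_le (fun i => (tg.mi_pc hs' (u i)).1) fun x hx => h1 x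
      (fun i => (tg.pc _ _).2.2 _ (hx i)) (fun i j => cell_near hs
        ((pc_ne (pc_ne (hx i)).2).1.trans (pc_ne (pc_ne (hx j)).2).1.symm)) fun i j hij => ?_).trans
      (mul_le_mul_of_nonneg_left ?_ hA)
    · have e1 := (mem_filter.1 (u i).2).2.trans (mem_filter.1 (u j).2).2.symm
      rw [← (pc_ne (hx i)).1, ← (pc_ne (hx j)).1] at e1
      refine cell_far hs' (fun h => hij (hu (Subtype.ext ?_))) (congrArg Prod.fst e1)
        (congrArg Prod.snd e1)
      rw [← (pc_ne (hx i)).1, ← (pc_ne (hx j)).1, h]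
    · refine (prod_le_prod (fun i _ => integral_nonneg fun _ => abs_nonneg _)
        fun i _ => (tg.mi_pc hs' (u i)).2).trans_eq ?_
      rw [prod_const, card_univ, Fintype.card_fin]
  · have a1 : (I'.card : ℝ) ^ (2 * q) * (A * ((s / k) ^ 2) ^ (2 * q)) ≤ A * (s ^ 2) ^ (2 * q) := by
      rw [mul_left_comm, ← mul_pow]
      refine mul_le_mul_of_nonneg_left (pow_le_pow_left₀ (by positivity) ?_ _) hA
      refine (mul_le_mul_of_nonneg_right cI' (by positivity)).trans_eq ?_
      field_simp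
    have a2 : (I'.card : ℝ) ^ q * Y ≤ k ^ (2 * q) * Y := by
      rw [pow_mul]
      exact mul_le_mul_of_nonneg_right (pow_le_pow_left₀ (by positivity) cI' _) hY
    have a3 := mul_le_mul_of_nonneg_left a2
      (by positivity : (0 : ℝ) ≤ (2 * (2 * q).factorial) ^ (2 * q))
    linarith

/-- The correlations of separated clusters have the order given by the dimension `α`. -/
def ZK (μ : ℝ → Measure Config) (T : ℝ → ℂ → Config → ℝ) (α : ℝ) (K : Set ℂ) : Prop :=
  ∀ q k : ℕ, q ≠ 0 → 2 ≤ k → ∃ A L₀ r : ℝ, 0 < r ∧ ∀ᶠ a in 𝓝[>] (0 : ℝ), ∀ s, L₀ * a ≤ s → s ≤ r →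
    ∀ x : Fin (2 * q) → ℂ, (∀ i, x i ∈ K) → (∀ i j, ‖x i - x j‖ ≤ 2 * s) →
      (∀ i j, i ≠ j → s / k ≤ ‖x i - x j‖) → |kc (μ a) (fun _ => T a) x| * (s ^ α) ^ (2 * q) ≤ A

/-- The moments of the field in a cell, up to a small power of the mesh. -/
def MK (μ : ℝ → Measure Config) (T : ℝ → ℂ → Config → ℝ) (α : ℝ) (K : Set ℂ) : Prop :=
  ∀ q : ℕ, q ≠ 0 → ∀ η > (0 : ℝ), ∃ B r : ℝ, 0 < B ∧ 0 < r ∧ ∀ᶠ a in 𝓝[>] (0 : ℝ), ∀ s, 0 < s →
    s ≤ r → ∀ f c, Tb K f →
      ∫ σ, fd (T a) (pc s f c) σ ^ (2 * q) ∂μ a ≤ (B * a ^ (-η) * (s ^ 2 / s ^ α)) ^ (2 * q)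

theorem ZK.mk {μ : ℝ → Measure Config} [∀ a, IsProbabilityMeasure (μ a)] {K : Set ℂ}
    {T : ℝ → ℂ → Config → ℝ} {α : ℝ} (h : ZK μ T α K) (h0 : 0 ≤ α) (h1 : α ≤ 1)
    (hT : ∀ a > 0, Ker (T a) (2 / a ^ α)) : MK μ T α K := by
  intro q hq η hη
  set F : ℝ := 2 * (2 * q).factorial with hF
  have hF1 : (1 : ℝ) ≤ F := by
    have : (1 : ℝ) ≤ (2 * q).factorial := by exact_mod_cast Nat.factorial_pos _
    linarith
  obtain ⟨p, hp⟩ := exists_nat_ge η⁻¹
  have p0 : p ≠ 0 := by
    rintro rfl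
    exact absurd (inv_pos.2 hη) (by simpa using hp)
  set k : ℕ := (16 * (2 * q).factorial) ^ p with hk
  have hkF : (k : ℝ) = (8 * F) ^ p := by rw [hk, hF]; push_cast; ring
  have hk' : (2 : ℝ) ≤ k := by
    rw [hkF]
    exact le_trans (by linarith) (le_self_pow₀ (by linarith) p0)
  obtain ⟨A, L₀, r, hr, h⟩ := h q k hq (by exact_mod_cast hk')
  set L := max L₀ 1 with hL
  have hL1 : 1 ≤ L := le_max_right _ _
  set B := max (16 * (|A| + 1)) (2 * L) with hB
  have hB0 : 0 < B := lt_max_of_lt_left (by positivity)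
  refine ⟨B * (8 * F), min r 1, by positivity, by positivity, ?_⟩
  filter_upwards [h, Ioo_mem_nhdsGT one_pos] with a h ha
  obtain ⟨ha, ha1⟩ := ha
  have hT := hT a ha
  have base : ∀ s, 0 < s → s ≤ L * a → ∀ f c, Tb K f →
      ∫ σ, fd (T a) (pc s f c) σ ^ (2 * q) ∂μ a ≤ (B * (s ^ 2 / s ^ α)) ^ (2 * q) := by
    intro s hs hsa f c hf
    have r1 := Real.rpow_pos_of_pos hs α
    have r2 := Real.rpow_pos_of_pos ha α
    have k1 : ∀ σ, |fd (T a) (pc s f c) σ| ≤ B * (s ^ 2 / s ^ α) := fun σ => by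
      refine (hT.abs (hf.mi_pc hs c).1 σ).trans ((mul_le_mul_of_nonneg_left (hf.mi_pc hs c).2
        (by positivity)).trans ?_)
      have k2 := Real.rpow_le_rpow hs.le hsa h0
      rw [Real.mul_rpow (by linarith) ha.le] at k2
      have k3 := mul_le_mul_of_nonneg_right (Real.rpow_le_self_of_one_le hL1 h1) r2.le
      have k4 := mul_le_mul_of_nonneg_right (le_max_right (16 * (|A| + 1)) (2 * L)) r2.le
      rw [mul_div_assoc', div_mul_eq_mul_div, div_le_div_iff₀ r2 r1, mul_right_comm,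
        mul_right_comm B]
      exact mul_le_mul_of_nonneg_right (by linarith) (by positivity)
    refine (integral_mono (((hT.bm (hf.mi_pc hs c).1).pow _).int _)
      (integrable_const ((B * (s ^ 2 / s ^ α)) ^ (2 * q))) fun σ => ?_).trans ?_
    · dsimp only
      rw [← (even_two_mul q).pow_abs]
      exact pow_le_pow_left₀ (abs_nonneg _) (k1 σ) _
    · rw [integral_const, probReal_univ, one_smul]
  have ind : ∀ (N : ℕ) (s : ℝ), 0 < s → s ≤ r → s ≤ k ^ N * (L * a) → ∀ f c, Tb K f →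
      ∫ σ, fd (T a) (pc s f c) σ ^ (2 * q) ∂μ a ≤
        (B * (8 * F) ^ N * (s ^ 2 / s ^ α)) ^ (2 * q) := by
    intro N
    induction N with
    | zero => exact fun s hs _ h => by simpa using base s hs (by simpa using h)
    | succ N ih =>
      intro s hs hsr hsN f c hf
      have r1 := Real.rpow_pos_of_pos hs α
      have G1 : 1 ≤ (8 * F) ^ (N + 1) := one_le_pow₀ (by linarith)
      rcases le_total s (L * a) with hc | hc
      · refine (base s hs hc f c hf).trans (pow_le_pow_left₀ (by positivity) ?_ _)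
        exact mul_le_mul_of_nonneg_right (le_mul_of_one_le_right hB0.le G1) (by positivity)
      have hsk : 0 < s / k := by positivity
      have r3 := Real.rpow_pos_of_pos hsk α
      refine (hT.step hq (by exact_mod_cast (by linarith : (0 : ℝ) < k)) hs
        (A := |A| / (s ^ α) ^ (2 * q)) (by positivity) (by positivity)
        (fun x x1 x2 x3 => (le_div_iff₀ (by positivity)).2 ((h s
          ((mul_le_mul_of_nonneg_right (le_max_left _ _) ha.le).trans hc) hsr x x1 x2 x3).trans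
            (le_abs_self A))) (ih (s / k) hsk
          ((div_le_self hs.le (by linarith)).trans hsr) (by
            rw [div_le_iff₀ (by positivity)]
            exact hsN.trans_eq (by ring))) hf c).trans ?_
      set w := s ^ 2 / s ^ α with hw
      have w0 : 0 < w := by positivity
      set X := B * (8 * F) ^ (N + 1) * w with hX
      have two : ∀ {u : ℝ}, 0 ≤ u → u ≤ X / 2 → u ^ (2 * q) ≤ X ^ (2 * q) / 2 := fun hu hu' => by
        refine (pow_le_pow_left₀ hu hu' _).trans ?_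
        rw [div_pow]
        exact div_le_div_of_nonneg_left (by positivity) two_pos
          (le_self_pow₀ one_le_two (by omega))
      have e1 : (4 : ℝ) ^ (2 * q) * (2 * (|A| / (s ^ α) ^ (2 * q) * (s ^ 2) ^ (2 * q))) ≤
          (8 * (|A| + 1) * w) ^ (2 * q) := by
        have k1 : 2 * |A| ≤ (2 * (|A| + 1)) ^ (2 * q) :=
          le_trans (by linarith) (le_self_pow₀ (by linarith [abs_nonneg A]) (by omega))
        calc _ = (2 * |A|) * (4 * w) ^ (2 * q) := by rw [hw, mul_pow 4, div_pow]; ring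
          _ ≤ (2 * (|A| + 1)) ^ (2 * q) * (4 * w) ^ (2 * q) :=
            mul_le_mul_of_nonneg_right k1 (by positivity)
          _ = _ := by rw [← mul_pow]; ring
      have e2 := two (u := 8 * (|A| + 1) * w) (by positivity) (by
        have k1 := le_mul_of_one_le_right hB0.le G1
        have k2 := le_max_left (16 * (|A| + 1)) (2 * L)
        rw [hX, mul_div_right_comm]
        exact mul_le_mul_of_nonneg_right (by linarith) w0.le)
      have e3 := two (u := 4 * (F * (k * (B * (8 * F) ^ N * ((s / k) ^ 2 / (s / k) ^ α)))))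
        (by positivity) (by
          have k0 : (0 : ℝ) < k := by linarith
          have k1 := Real.rpow_pos_of_pos k0 α
          have k2 : (k : ℝ) ^ α / k ≤ 1 :=
            (div_le_one k0).2 (Real.rpow_le_self_of_one_le (by linarith) h1)
          calc _ = X / 2 * ((k : ℝ) ^ α / k) := by
                rw [hX, hw, Real.div_rpow hs.le k0.le]
                field_simp
                ring
            _ ≤ _ := mul_le_of_le_one_right (by positivity) k2)
      rw [mul_pow 4, mul_pow F, mul_pow (k : ℝ)] at e3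
      rw [mul_add]
      linarith
  intro s hs hsr f c hf
  obtain ⟨N, n1, n2⟩ := exists_nat_pow_near ((one_le_inv₀ ha).2 ha1.le) (by linarith : (1 : ℝ) < k)
  refine (ind (N + 1) s hs (hsr.trans (min_le_left _ _)) ?_ f c hf).trans
    (pow_le_pow_left₀ (by positivity) (mul_le_mul_of_nonneg_right ?_ (by positivity)) _)
  · have k1 := (inv_lt_iff_one_lt_mul₀ ha).1 n2
    have k2 : (k : ℝ) ^ (N + 1) * a ≤ k ^ (N + 1) * (L * a) :=
      mul_le_mul_of_nonneg_left (le_mul_of_one_le_left ha.le hL1) (by positivity)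
    linarith [hsr.trans (min_le_right _ _)]
  · rw [pow_succ', ← mul_assoc]
    refine mul_le_mul_of_nonneg_left (le_of_pow_le_pow_left₀ p0 (by positivity) ?_) (by positivity)
    rw [← pow_mul, mul_comm N, pow_mul, ← hkF, ← Real.rpow_mul_natCast ha.le]
    refine n1.trans ?_
    rw [← Real.rpow_neg_one]
    refine Real.rpow_le_rpow_of_exponent_ge ha ha1.le ?_
    have := (inv_le_iff_one_le_mul₀' hη).1 hp
    linarith

end Vale.Agent.P144DD
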